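import Mathlib

/-!
Chord lengths of a convex body in a fixed direction: the product of chord and projection is at
most three times the volume, with a quantitative excess.
-/

open MeasureTheory Set
open scoped Pointwise

set_option linter.unusedSectionVars false

namespace Vale.Agent.P243

noncomputable section

variable {F : Type*} [NormedAddCommGroup F] [NormedSpace ℝ F] [MeasurableSpace F] [BorelSpace F]
  [FiniteDimensional ℝ F]

/-- Projection of a body in `F × ℝ`. -/
def shadow (K : Set (F × ℝ)) : Set F := Prod.fst '' K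

/-- Length of the chord over `y`. -/
def chordLen (K : Set (F × ℝ)) (y : F) : ℝ := (volume {t : ℝ | (y, t) ∈ K}).toReal

/-- Hypograph of the chord length. -/
def chordHyp (K : Set (F × ℝ)) : Set (F × ℝ) :=
  {p | p.1 ∈ shadow K ∧ 0 ≤ p.2 ∧ p.2 ≤ chordLen K p.1}

variable {K : Set (F × ℝ)}

lemma isCompact_shadow (hK : IsCompact K) : IsCompact (shadow K) := hK.image continuous_fst

lemma convex_shadow (hKc : Convex ℝ K) : Convex ℝ (shadow K) :=
  hKc.linear_image (LinearMap.fst ℝ F ℝ)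

lemma sec_isCompact (hK : IsCompact K) (y : F) : IsCompact {t : ℝ | (y, t) ∈ K} :=
  (hK.image continuous_snd).of_isClosed_subset
    (hK.isClosed.preimage (Continuous.prodMk_right y)) fun t ht => ⟨(y, t), ht, rfl⟩

lemma sec_convex (hKc : Convex ℝ K) (y : F) : Convex ℝ {t : ℝ | (y, t) ∈ K} := by
  intro a ha b hb p q hp hq hpq
  show (y, p • a + q • b) ∈ K
  have := hKc ha hb hp hq hpq
  rwa [Prod.smul_mk, Prod.smul_mk, Prod.mk_add_mk, Convex.combo_self hpq] at this

lemma ofReal_chordLen (hK : IsCompact K) (y : F) :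
    ENNReal.ofReal (chordLen K y) = volume {t : ℝ | (y, t) ∈ K} :=
  ENNReal.ofReal_toReal (sec_isCompact hK y).measure_lt_top.ne

lemma chordLen_nonneg (y : F) : 0 ≤ chordLen K y := ENNReal.toReal_nonneg

lemma chordLen_eq_zero {y : F} (hy : y ∉ shadow K) : chordLen K y = 0 := by
  have : {t : ℝ | (y, t) ∈ K} = ∅ := eq_empty_of_forall_notMem fun t ht => hy ⟨(y, t), ht, rfl⟩
  simp [chordLen, this]

lemma le_chordLen (hK : IsCompact K) (hKc : Convex ℝ K) {y : F} {a b : ℝ} (ha : (y, a) ∈ K)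
    (hb : (y, b) ∈ K) : b - a ≤ chordLen K y := by
  rcases le_total b a with h | h
  · linarith [chordLen_nonneg (K := K) y]
  · have hsub : Icc a b ⊆ {t : ℝ | (y, t) ∈ K} := (sec_convex hKc y).ordConnected.out ha hb
    have := ENNReal.toReal_mono (sec_isCompact hK y).measure_lt_top.ne (measure_mono (μ := volume) hsub)
    rwa [Real.volume_Icc, ENNReal.toReal_ofReal (sub_nonneg.2 h)] at this

lemma exists_chord_ends (hK : IsCompact K) (hKc : Convex ℝ K) {y : F} (hy : y ∈ shadow K) :
    ∃ a b, a ≤ b ∧ (y, a) ∈ K ∧ (y, b) ∈ K ∧ chordLen K y = b - a ∧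
      ∀ t, (y, t) ∈ K ↔ t ∈ Icc a b := by
  obtain ⟨⟨y', t⟩, ht, rfl⟩ := hy
  set S := {t : ℝ | (y', t) ∈ K} with hS
  have hne : S.Nonempty := ⟨t, ht⟩
  have e : S = Icc (sInf S) (sSup S) := eq_Icc_of_connected_compact
    ((sec_convex hKc y').isConnected hne) (sec_isCompact hK y')
  have hle : sInf S ≤ sSup S := by
    rw [e] at hne; exact nonempty_Icc.1 hne
  refine ⟨sInf S, sSup S, hle, ?_, ?_, ?_, fun s => by rw [← e]; rfl⟩
  · exact (sec_isCompact hK y').sInf_mem ⟨t, ht⟩
  · exact (sec_isCompact hK y').sSup_mem ⟨t, ht⟩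
  · show (volume S).toReal = _
    conv_lhs => rw [e]
    rw [Real.volume_Icc, ENNReal.toReal_ofReal (sub_nonneg.2 hle)]

lemma chordLen_concave (hK : IsCompact K) (hKc : Convex ℝ K) {y z : F} (hy : y ∈ shadow K)
    (hz : z ∈ shadow K) {θ : ℝ} (h0 : 0 ≤ θ) (h1 : θ ≤ 1) :
    (1 - θ) * chordLen K y + θ * chordLen K z ≤ chordLen K ((1 - θ) • y + θ • z) := by
  obtain ⟨a, b, -, ha, hb, e, -⟩ := exists_chord_ends hK hKc hy
  obtain ⟨c, d, -, hc, hd, e', -⟩ := exists_chord_ends hK hKc hz
  have m1 := hKc ha hc (by linarith : 0 ≤ 1 - θ) h0 (by ring)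
  have m2 := hKc hb hd (by linarith : 0 ≤ 1 - θ) h0 (by ring)
  simp only [Prod.smul_mk, Prod.mk_add_mk, smul_eq_mul] at m1 m2
  have := le_chordLen hK hKc m1 m2
  rw [e, e']
  linarith

lemma measurable_chordLen (hK : IsCompact K) : Measurable (chordLen K) :=
  (measurable_measure_prodMk_left hK.isClosed.measurableSet).ennreal_toReal

lemma measurableSet_chordHyp (hK : IsCompact K) : MeasurableSet (chordHyp K) :=
  ((isCompact_shadow hK).isClosed.measurableSet.preimage measurable_fst).inter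
    ((measurableSet_le measurable_const measurable_snd).inter
      (measurableSet_le measurable_snd ((measurable_chordLen hK).comp measurable_fst)))

variable (μ : Measure F) [μ.IsAddHaarMeasure]

lemma prod_chordHyp (hK : IsCompact K) :
    (μ.prod volume) (chordHyp K) = (μ.prod volume) K := by
  rw [Measure.prod_apply (measurableSet_chordHyp hK), Measure.prod_apply hK.isClosed.measurableSet]
  refine lintegral_congr fun y => ?_
  show _ = volume {t : ℝ | (y, t) ∈ K}
  rw [← ofReal_chordLen hK]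
  by_cases hy : y ∈ shadow K
  · have : Prod.mk y ⁻¹' chordHyp K = Icc 0 (chordLen K y) := by
      ext t; simp [chordHyp, hy]
    rw [this, Real.volume_Icc, sub_zero]
  · have : Prod.mk y ⁻¹' chordHyp K = ∅ := by
      ext t; simp [chordHyp, hy]
    rw [this, chordLen_eq_zero hy]; simp

variable (hF : Module.finrank ℝ F = 2)
include hF

/-- The cone with apex over `y₁` inside the hypograph, and its volume. -/
lemma cone_volume {Y : Set F} (hY : IsCompact Y) {y₁ : F} {h : ℝ} (hh : 0 ≤ h) :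
    ENNReal.ofReal (h / 3) * μ Y ≤
      (μ.prod volume) ((fun p : F × ℝ => ((1 - p.2) • p.1 + p.2 • y₁, p.2 * h)) '' (Y ×ˢ Icc 0 1)) := by
  rcases eq_or_lt_of_le hh with rfl | hh
  · simp
  set C := (fun p : F × ℝ => ((1 - p.2) • p.1 + p.2 • y₁, p.2 * h)) '' (Y ×ˢ Icc 0 1) with hC
  have hCm : MeasurableSet C := ((hY.prod isCompact_Icc).image (by fun_prop)).isClosed.measurableSet
  rw [Measure.prod_apply_symm hCm]
  have hsub : ∀ r ∈ Icc (0:ℝ) h,
      AffineMap.homothety y₁ (1 - r / h) '' Y ⊆ (fun x => (x, r)) ⁻¹' C := by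
    rintro r ⟨r0, r1⟩ _ ⟨z, hz, rfl⟩
    refine ⟨(z, r / h), ⟨hz, div_nonneg r0 hh.le, (div_le_one hh).2 r1⟩, ?_⟩
    simp only [AffineMap.homothety_apply, vsub_eq_sub, vadd_eq_add, Prod.mk.injEq]
    refine ⟨?_, div_mul_cancel₀ _ hh.ne'⟩
    module
  calc ENNReal.ofReal (h / 3) * μ Y
      = ∫⁻ r in Icc (0:ℝ) h, ENNReal.ofReal ((1 - r / h) ^ 2) * μ Y := by
        rw [lintegral_mul_const' _ _ hY.measure_lt_top.ne]
        congr 1
        rw [← ofReal_integral_eq_lintegral_ofReal ((Continuous.continuousOn (by fun_prop)).integrableOn_compact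
          isCompact_Icc) (ae_of_all _ fun r => sq_nonneg _)]
        congr 1
        rw [integral_Icc_eq_integral_Ioc, ← intervalIntegral.integral_of_le hh.le,
          intervalIntegral.integral_comp_div (fun r => (1 - r) ^ 2) hh.ne']
        rw [intervalIntegral.integral_comp_sub_left (fun r => r ^ 2) 1]
        simp [hh.ne']
        ring
    _ ≤ ∫⁻ r in Icc (0:ℝ) h, μ ((fun x => (x, r)) ⁻¹' C) := by
        refine lintegral_mono_ae ((ae_restrict_iff' measurableSet_Icc).2 (ae_of_all _ fun r hr => ?_))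
        refine le_trans (le_of_eq ?_) (measure_mono (hsub r hr))
        rw [Measure.addHaar_image_homothety, hF, abs_of_nonneg (sq_nonneg _)]
    _ ≤ _ := setLIntegral_le_lintegral _ _

/-- Chord times projection is at most three times the volume, with an excess term. -/
lemma volume_excess (hK : IsCompact K) (hKc : Convex ℝ K) {y₁ : F} (hy₁ : y₁ ∈ shadow K)
    (L : F →L[ℝ] ℝ) (c M : ℝ) (h1 : chordLen K y₁ = c + L y₁)
    (hAff : ∀ y ∈ shadow K, 0 ≤ c + L y ∧ c + L y ≤ M)
    {w : F} (hw : w ∈ shadow K) {θ q : ℝ} (hθ0 : 0 ≤ θ) (hθ1 : θ ≤ 1) (hq0 : 0 ≤ q)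
    (hq : q ≤ (1 - θ) * (chordLen K w - (c + L w)) - θ * M) :
    chordLen K y₁ / 3 * μ.real (shadow K) + q * θ ^ 2 * μ.real (shadow K)
      ≤ (μ.prod volume).real K := by
  set Y := shadow K
  have hY : IsCompact Y := isCompact_shadow hK
  have hYc : Convex ℝ Y := convex_shadow hKc
  set h := chordLen K y₁
  set C := (fun p : F × ℝ => ((1 - p.2) • p.1 + p.2 • y₁, p.2 * h)) '' (Y ×ˢ Icc 0 1) with hC
  set Y' := AffineMap.homothety w θ '' Y with hY'
  set X : Set (F × ℝ) := {p | p.1 ∈ Y' ∧ c + L p.1 < p.2 ∧ p.2 ≤ c + L p.1 + q} with hX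
  have hY'c : IsCompact Y' := hY.image (AffineMap.homothety w θ).continuous_of_finiteDimensional
  have hXm : MeasurableSet X :=
    (hY'c.isClosed.measurableSet.preimage measurable_fst).inter
      ((measurableSet_lt (Measurable.add measurable_const (L.measurable.comp measurable_fst))
        measurable_snd).inter (measurableSet_le measurable_snd
          ((Measurable.add measurable_const (L.measurable.comp measurable_fst)).add_const q)))
  have hCH : C ⊆ chordHyp K ∧ ∀ p ∈ C, p.2 ≤ c + L p.1 := by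
    constructor <;> rintro _ ⟨⟨z, l⟩, ⟨hz, l0, l1⟩, rfl⟩
    · refine ⟨hYc hz hy₁ (by linarith) l0 (by ring), mul_nonneg l0 (chordLen_nonneg _), ?_⟩
      have := chordLen_concave hK hKc hz hy₁ l0 l1
      have := mul_nonneg (by linarith : (0:ℝ) ≤ 1 - l) (chordLen_nonneg (K := K) z)
      show l * h ≤ chordLen K ((1 - l) • z + l • y₁)
      linarith
    · show l * h ≤ c + L ((1 - l) • z + l • y₁)
      rw [map_add, map_smul, map_smul, smul_eq_mul, smul_eq_mul, h1]
      have := mul_nonneg (by linarith : (0:ℝ) ≤ 1 - l) (hAff z hz).1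
      linarith
  have hXH : X ⊆ chordHyp K := by
    rintro ⟨y, r⟩ ⟨⟨z, hz, rfl⟩, r1, r2⟩
    have e : AffineMap.homothety w θ z = (1 - θ) • w + θ • z := by
      simp only [AffineMap.homothety_apply, vsub_eq_sub, vadd_eq_add]; module
    simp only [e] at r1 r2 ⊢
    have hm : (1 - θ) • w + θ • z ∈ Y := hYc hw hz (by linarith) hθ0 (by ring)
    refine ⟨hm, le_trans (hAff _ hm).1 r1.le, r2.trans ?_⟩
    have := chordLen_concave hK hKc hw hz hθ0 hθ1
    have := mul_nonneg hθ0 (chordLen_nonneg (K := K) z)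
    have := mul_le_mul_of_nonneg_left (hAff z hz).2 hθ0
    simp only [map_add, map_smul, smul_eq_mul]
    linarith
  have hdis : Disjoint C X := Set.disjoint_left.2 fun p hp hp' =>
    absurd (hCH.2 p hp) (not_le.2 hp'.2.1)
  have hXv : (μ.prod volume) X = ENNReal.ofReal q * (ENNReal.ofReal (θ ^ 2) * μ Y) := by
    rw [Measure.prod_apply hXm]
    calc ∫⁻ y, volume (Prod.mk y ⁻¹' X) ∂μ = ∫⁻ y, Y'.indicator (fun _ => ENNReal.ofReal q) y ∂μ := by
          refine lintegral_congr fun y => ?_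
          by_cases hy : y ∈ Y'
          · have : Prod.mk y ⁻¹' X = Ioc (c + L y) (c + L y + q) := by ext t; simp [hX, hy]
            rw [this, indicator_of_mem hy, Real.volume_Ioc]; simp
          · have : Prod.mk y ⁻¹' X = ∅ := by ext t; simp [hX, hy]
            rw [this, indicator_of_notMem hy]; simp
      _ = ENNReal.ofReal q * μ Y' := lintegral_indicator_const hY'c.isClosed.measurableSet _
      _ = _ := by rw [hY', Measure.addHaar_image_homothety, hF, abs_of_nonneg (sq_nonneg θ)]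
  have hmain : ENNReal.ofReal (h / 3) * μ Y + ENNReal.ofReal q * (ENNReal.ofReal (θ ^ 2) * μ Y)
      ≤ (μ.prod volume) K := by
    rw [← hXv, ← prod_chordHyp μ hK]
    refine le_trans ?_ (measure_mono (union_subset hCH.1 hXH))
    rw [measure_union hdis hXm]
    exact add_le_add_left (cone_volume μ hF hY (chordLen_nonneg _)) _
  have hfin : (μ.prod volume) K ≠ ⊤ := hK.measure_lt_top.ne
  have hYfin : μ Y ≠ ⊤ := hY.measure_lt_top.ne
  have := ENNReal.toReal_mono hfin hmain
  rw [ENNReal.toReal_add (ENNReal.mul_ne_top ENNReal.ofReal_ne_top hYfin)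
      (ENNReal.mul_ne_top ENNReal.ofReal_ne_top (ENNReal.mul_ne_top ENNReal.ofReal_ne_top hYfin)),
    ENNReal.toReal_mul, ENNReal.toReal_mul, ENNReal.toReal_mul,
    ENNReal.toReal_ofReal (div_nonneg (chordLen_nonneg _) (by norm_num)),
    ENNReal.toReal_ofReal hq0, ENNReal.toReal_ofReal (sq_nonneg θ)] at this
  simpa [Measure.real, mul_assoc] using this

/-- The Rogers–Shephard inequality for one chord. -/
lemma chord_mul_shadow_le (hK : IsCompact K) (hKc : Convex ℝ K) (y : F) :
    chordLen K y * μ.real (shadow K) ≤ 3 * (μ.prod volume).real K := by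
  by_cases hy : y ∈ shadow K
  · have := volume_excess μ hF hK hKc hy 0 (chordLen K y) (chordLen K y) (by simp)
      (fun z _ => ⟨by simpa using chordLen_nonneg y, by simp⟩) hy (θ := 0) (q := 0) le_rfl zero_le_one
      le_rfl (by simp)
    linarith
  · rw [chordLen_eq_zero hy]; simp [Measure.real]

/-- A nearly extremal chord cannot have a long neighbour in a direction in which the
projection gauge grows. -/
lemma not_nearly_extremal (hK : IsCompact K) (hKc : Convex ℝ K) (hV : 0 < (μ.prod volume).real K)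
    {y₁ y' : F} (hy₁ : y₁ ∈ shadow K) (hy' : y' ∈ shadow K) (φ : F →L[ℝ] ℝ) {W ρ η δ : ℝ}
    (hW : ∀ y ∈ shadow K, |φ y| ≤ W) (hρ : 0 < ρ) (hρW : ρ ≤ W) (hη0 : 0 ≤ η) (hη1 : η ≤ 1)
    (hηW : η * W ≤ ρ / 2) (hφ : (1 + η) * φ y' = φ y₁ + ρ)
    (hlong : chordLen K y₁ ≤ (1 + η) * chordLen K y')
    (hext : (3 - δ) * (μ.prod volume).real K ≤ chordLen K y₁ * μ.real (shadow K)) :
    (ρ / W) ^ 3 / 5120 < δ := by
  by_contra hδ
  rw [not_lt] at hδ
  have hWp : 0 < W := lt_of_lt_of_le hρ hρW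
  have hr : ρ / W ≤ 1 := (div_le_one hWp).2 hρW
  have hr3 : (ρ / W) ^ 3 ≤ 1 := pow_le_one₀ (div_nonneg hρ.le hWp.le) hr
  have hδ1 : δ ≤ 1 := by linarith
  set f := chordLen K y₁ with hf
  set A := μ.real (shadow K) with hA
  set V := (μ.prod volume).real K
  have hA0 : 0 ≤ A := ENNReal.toReal_nonneg
  have hfA : 0 < f * A := lt_of_lt_of_le (mul_pos (by linarith) hV) hext
  have hf0 : 0 < f := by
    rcases lt_or_eq_of_le (chordLen_nonneg (K := K) y₁) with h | h
    · exact h
    · rw [← hf] at h; rw [← h, zero_mul] at hfA; exact absurd hfA (lt_irrefl _)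
  obtain ⟨m, hm, hmax⟩ := (isCompact_shadow hK).exists_isMaxOn ⟨y₁, hy₁⟩ φ.continuous.continuousOn
  have hmax : ∀ y ∈ shadow K, φ y ≤ φ m := hmax
  set gap := φ m - φ y₁ with hgap
  have hbm := abs_le.1 (hW m hm)
  have hby1 := abs_le.1 (hW y₁ hy₁)
  have h2 : (ρ - η * φ y₁) ≤ (1 + η) * gap := by
    have := mul_le_mul_of_nonneg_left (hmax y' hy') (by linarith : (0:ℝ) ≤ 1 + η)
    rw [hgap]; linarith
  have hgap0 : 0 < gap := by
    have : η * φ y₁ ≤ ρ / 2 := le_trans (mul_le_mul_of_nonneg_left hby1.2 hη0) hηW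
    by_contra hc
    have := mul_le_mul_of_nonneg_left (not_lt.1 hc) (by linarith : (0:ℝ) ≤ 1 + η)
    linarith
  have hgapW : gap ≤ 2 * W := by rw [hgap]; linarith
  set L : F →L[ℝ] ℝ := (-(f / gap)) • φ with hL
  set c := f * φ m / gap with hc
  have hLe : ∀ y, c + L y = f * (φ m - φ y) / gap := by
    intro y; simp only [hL, hc, smul_apply, smul_eq_mul]; ring
  set θ := ρ / (16 * W) with hθ
  have hθ0 : 0 ≤ θ := by positivity
  have hθ1 : θ ≤ 1 / 16 := by rw [hθ, div_le_iff₀ (by positivity)]; linarith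
  set q := f * ρ / (20 * W) with hq
  have hdiff : f * (ρ / 4) ≤ gap * (chordLen K y' - (c + L y')) := by
    rw [hLe, mul_sub, mul_div_cancel₀ _ hgap0.ne']
    refine le_of_mul_le_mul_left ?_ (show (0:ℝ) < 1 + η by linarith)
    have h3 := mul_le_mul_of_nonneg_left hlong hgap0.le
    have e2 : η * φ m ≤ ρ / 2 := le_trans (mul_le_mul_of_nonneg_left hbm.2 hη0) hηW
    have e3 := mul_le_mul_of_nonneg_left e2 hf0.le
    have e4 := mul_le_mul_of_nonneg_left hη1 (mul_nonneg hf0.le hρ.le)
    have e5 : f * ((1 + η) * φ y') = f * (φ y₁ + ρ) := by rw [hφ]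
    rw [hgap] at h3 ⊢
    linarith
  have hq' : q ≤ (1 - θ) * (chordLen K y' - (c + L y')) - θ * (f * (2 * W) / gap) := by
    have k1 : (1 - θ) * (f * (ρ / 4)) / gap ≤ (1 - θ) * (chordLen K y' - (c + L y')) := by
      rw [div_le_iff₀ hgap0]
      have := mul_le_mul_of_nonneg_left hdiff (by linarith : (0:ℝ) ≤ 1 - θ)
      linarith
    have k2 : (f * ρ / 10) / gap ≤ (1 - θ) * (f * (ρ / 4)) / gap - θ * (f * (2 * W) / gap) := by
      rw [← mul_div_assoc θ, ← sub_div]
      refine (div_le_div_iff_of_pos_right hgap0).2 ?_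
      have : θ * (f * (2 * W)) = f * (ρ / 8) := by rw [hθ]; field_simp; ring
      have := mul_le_mul_of_nonneg_right hθ1 (by positivity : 0 ≤ f * (ρ / 4))
      have : 0 ≤ f * ρ := by positivity
      linarith
    have k3 : q ≤ (f * ρ / 10) / gap := by
      rw [hq, div_div]
      exact div_le_div_of_nonneg_left (by positivity) (by positivity) (by linarith)
    linarith
  have hexc := volume_excess μ hF hK hKc hy₁ L c (f * (2 * W) / gap)
    (by rw [hLe, ← hgap, mul_div_assoc, div_self hgap0.ne', mul_one])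
    (fun y hy => by
      rw [hLe]
      have := abs_le.1 (hW y hy)
      refine ⟨div_nonneg (mul_nonneg hf0.le (sub_nonneg.2 (hmax y hy))) hgap0.le,
        (div_le_div_iff_of_pos_right hgap0).2 (mul_le_mul_of_nonneg_left (by linarith) hf0.le)⟩)
    hy' hθ0 (by linarith) (by positivity) hq'
  have e : q * θ ^ 2 * A = f * A * ((ρ / W) ^ 3 / 5120) := by
    rw [hq, hθ]; field_simp; ring
  change f / 3 * A + q * θ ^ 2 * A ≤ V at hexc
  rw [e] at hexc
  set k := (ρ / W) ^ 3 / 5120 with hk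
  have hk0 : 0 < k := by positivity
  have : (3 - δ) * V * (1/3 + k) ≤ V := by
    have := mul_le_mul_of_nonneg_right hext (by linarith : (0:ℝ) ≤ 1/3 + k)
    linarith
  have h4 : (3 - δ) * (1/3 + k) ≤ 1 := by
    refine le_of_mul_le_mul_right ?_ hV
    linarith
  have := mul_le_mul_of_nonneg_right hδ1 hk0.le
  linarith

end

end Vale.Agent.P243
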