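import Mathlib

/-!
Second differences of the gauge of a convex body in normalised position, and the volume of the
part of a boundary layer where they are large.
-/

open MeasureTheory Set Filter Topology
open scoped Pointwise

set_option linter.unusedSectionVars false

namespace Vale.Agent.P243

noncomputable section

/-- The `ℓ¹` norm on `Fin 3 → ℝ`. -/
def l1 (x : Fin 3 → ℝ) : ℝ := ∑ i, |x i|

/-- A convex body containing the unit octahedron and contained in the cube of half side `5`. -/
structure Norm3 (K : Set (Fin 3 → ℝ)) : Prop where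
  compact : IsCompact K
  convex : Convex ℝ K
  oct : ∀ x, l1 x ≤ 1 → x ∈ K
  box : ∀ x ∈ K, ∀ i, |x i| ≤ 5

/-- Sum of the symmetric second differences of the gauge. -/
def kink (K : Set (Fin 3 → ℝ)) (ρ : ℝ) (x : Fin 3 → ℝ) : ℝ :=
  ∑ i, (gauge K (x + Pi.single i ρ) + gauge K (x - Pi.single i ρ) - 2 * gauge K x)

/-- Part of the outer layer where the gauge is kinked. -/
def kinkLayer (K : Set (Fin 3 → ℝ)) (ρ s τ : ℝ) : Set (Fin 3 → ℝ) :=
  {x | x ∈ K ∧ 1 - 30 * s ≤ gauge K x ∧ τ ≤ kink K ρ x}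

lemma l1_nonneg (x : Fin 3 → ℝ) : 0 ≤ l1 x := Finset.sum_nonneg fun _ _ => abs_nonneg _

lemma l1_neg (x : Fin 3 → ℝ) : l1 (-x) = l1 x := by simp [l1]

lemma l1_smul (a : ℝ) (x : Fin 3 → ℝ) : l1 (a • x) = |a| * l1 x := by
  simp [l1, abs_mul, Finset.mul_sum]

lemma l1_single (i : Fin 3) (a : ℝ) : l1 (Pi.single i a) = |a| := by
  simp [l1, Pi.single_apply, apply_ite abs]

namespace Norm3

variable {K : Set (Fin 3 → ℝ)} (h : Norm3 K)
include h

lemma mem_nhds : K ∈ 𝓝 (0 : Fin 3 → ℝ) := by
  refine Filter.mem_of_superset (Metric.closedBall_mem_nhds 0 (by norm_num : (0:ℝ) < 1/3)) fun x hx => h.oct x ?_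
  rw [mem_closedBall_zero_iff] at hx
  calc l1 x ≤ ∑ _i : Fin 3, (1/3 : ℝ) :=
        Finset.sum_le_sum fun i _ => le_trans (norm_le_pi_norm x i) hx
    _ = 1 := by simp

lemma absorbent : Absorbent ℝ K := absorbent_nhds_zero h.mem_nhds

lemma gauge_le_l1 (x : Fin 3 → ℝ) : gauge K x ≤ l1 x := by
  rcases eq_or_lt_of_le (l1_nonneg x) with e | e
  · have : x = 0 := by
      funext i
      have := (Finset.sum_eq_zero_iff_of_nonneg (fun j _ => abs_nonneg (x j))).1 e.symm i (Finset.mem_univ i)
      simpa using this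
    simp [this, l1]
  · refine gauge_le_of_mem e.le ⟨(l1 x)⁻¹ • x, h.oct _ ?_, smul_inv_smul₀ e.ne' x⟩
    rw [l1_smul, abs_of_pos (inv_pos.2 e), inv_mul_cancel₀ e.ne']

lemma add_le (x y : Fin 3 → ℝ) : gauge K (x + y) ≤ gauge K x + gauge K y :=
  gauge_add_le h.convex h.absorbent x y

lemma lip (x v : Fin 3 → ℝ) : |gauge K (x + v) - gauge K x| ≤ l1 v := by
  rw [abs_le]
  have h1 := (h.add_le x v).trans (add_le_add le_rfl (h.gauge_le_l1 v))
  have h2 := (h.add_le (x + v) (-v)).trans (add_le_add le_rfl (h.gauge_le_l1 (-v)))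
  rw [add_neg_cancel_right, l1_neg] at h2
  constructor <;> linarith

lemma mem_iff (x : Fin 3 → ℝ) : x ∈ K ↔ gauge K x ≤ 1 := by
  rw [gauge_le_one_iff_mem_closure h.convex h.mem_nhds, h.compact.isClosed.closure_eq]

lemma continuous : Continuous (gauge K) := continuous_gauge h.convex h.mem_nhds

lemma smul (a : ℝ) (ha : 0 ≤ a) (x : Fin 3 → ℝ) : gauge K (a • x) = a * gauge K x :=
  gauge_smul_of_nonneg ha x

lemma continuous_kink (ρ : ℝ) : Continuous (kink K ρ) := by
  have := h.continuous
  exact continuous_finsetSum _ fun i _ => by fun_prop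

lemma second_diff_nonneg (x v : Fin 3 → ℝ) :
    0 ≤ gauge K (x + v) + gauge K (x - v) - 2 * gauge K x := by
  have := h.add_le (x + v) (x - v)
  rw [show x + v + (x - v) = (2:ℝ) • x by module, h.smul 2 zero_le_two] at this
  linarith

lemma kink_nonneg (ρ : ℝ) (x : Fin 3 → ℝ) : 0 ≤ kink K ρ x :=
  Finset.sum_nonneg fun _ _ => h.second_diff_nonneg x _

lemma kink_lip (ρ : ℝ) (x v : Fin 3 → ℝ) : kink K ρ x - 12 * l1 v ≤ kink K ρ (x + v) := by
  have key : ∀ w : Fin 3 → ℝ, gauge K (x + w) + gauge K (x - w) - 2 * gauge K x - 4 * l1 v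
      ≤ gauge K (x + v + w) + gauge K (x + v - w) - 2 * gauge K (x + v) := fun w => by
    have a := abs_le.1 (h.lip (x + w) v)
    have b := abs_le.1 (h.lip (x - w) v)
    have c := abs_le.1 (h.lip x v)
    rw [show x + v + w = x + w + v by abel, show x + v - w = x - w + v by abel]
    linarith
  have h0 := key (Pi.single 0 ρ)
  have h1 := key (Pi.single 1 ρ)
  have h2 := key (Pi.single 2 ρ)
  simp only [kink, Fin.sum_univ_three]
  linarith

lemma kink_smul (ρ : ℝ) (x : Fin 3 → ℝ) {a : ℝ} (ha : 0 < a) (ha1 : a ≤ 1) :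
    kink K ρ x ≤ kink K ρ (a • x) := by
  have key : ∀ w : Fin 3 → ℝ, gauge K (x + w) ≤ (1 - a) * gauge K x + gauge K (a • x + w) := fun w => by
    have := h.add_le ((1 - a) • x) (a • x + w)
    rw [show (1 - a) • x + (a • x + w) = x + w by module, h.smul _ (by linarith)] at this
    exact this
  refine Finset.sum_le_sum fun i _ => ?_
  have k1 := key (Pi.single i ρ)
  have k2 := key (-Pi.single i ρ)
  rw [← sub_eq_add_neg, ← sub_eq_add_neg] at k2
  rw [h.smul a ha.le]
  linarith

/-- The forward difference quotient bounds the gauge nearby, up to the kink. -/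
lemma gauge_add_le_linear {ρ : ℝ} (hρ : 0 < ρ) (x v : Fin 3 → ℝ) (hv : l1 v ≤ ρ) :
    gauge K (x + v) ≤ gauge K x + ∑ i, v i * ((gauge K (x + Pi.single i ρ) - gauge K x) / ρ)
      + kink K ρ x := by
  set D : Fin 3 → ℝ := fun i =>
    gauge K (x + Pi.single i ρ) + gauge K (x - Pi.single i ρ) - 2 * gauge K x with hD
  set p : Fin 3 → (Fin 3 → ℝ) := fun i =>
    x + Pi.single i (if 0 ≤ v i then ρ else -ρ) with hp
  set w : Fin 3 → ℝ := fun i => |v i| / ρ with hw
  have hw0 : ∀ i, 0 ≤ w i := fun i => by positivity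
  have hws : ∑ i, w i ≤ 1 := by
    simp only [hw, ← Finset.sum_div]; rw [div_le_one hρ]; exact hv
  have e : x + v = (1 - ∑ i, w i) • x + ∑ i, w i • p i := by
    have : ∀ i, w i • p i = w i • x + Pi.single i (v i) := fun i => by
      simp only [hp, smul_add, ← Pi.single_smul, smul_eq_mul, hw]
      congr 2
      split_ifs with hi
      · rw [abs_of_nonneg hi]; field_simp
      · rw [abs_of_neg (not_le.1 hi)]; field_simp
    simp only [this, Finset.sum_add_distrib, ← Finset.sum_smul, Finset.univ_sum_single]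
    module
  have hterm : ∀ i, gauge K (w i • p i) ≤ w i * gauge K x
      + v i * ((gauge K (x + Pi.single i ρ) - gauge K x) / ρ) + D i := fun i => by
    have hwi : w i ≤ 1 := (Finset.single_le_sum (fun j _ => hw0 j) (Finset.mem_univ i)).trans hws
    have hD0 : 0 ≤ D i := h.second_diff_nonneg x _
    rw [h.smul _ (hw0 i)]
    simp only [hp, hw] at hwi ⊢
    split_ifs with hi
    · rw [abs_of_nonneg hi]
      have : v i / ρ * gauge K x + v i * ((gauge K (x + Pi.single i ρ) - gauge K x) / ρ)
          = v i / ρ * gauge K (x + Pi.single i ρ) := by field_simp; ring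
      linarith
    · rw [abs_of_neg (not_le.1 hi)] at hwi ⊢
      rw [Pi.single_neg, ← sub_eq_add_neg]
      have e1 : -v i / ρ * gauge K x + v i * ((gauge K (x + Pi.single i ρ) - gauge K x) / ρ)
          + (-v i / ρ) * D i = -v i / ρ * gauge K (x - Pi.single i ρ) := by
        simp only [hD]; field_simp; ring
      have := mul_le_mul_of_nonneg_right hwi hD0
      linarith
  have hx : gauge K ((1 - ∑ i, w i) • x) = (1 - ∑ i, w i) * gauge K x :=
    h.smul (1 - ∑ i, w i) (by linarith) x
  rw [e]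
  simp only [Fin.sum_univ_three] at hx ⊢
  have := h.add_le ((1 - (w 0 + w 1 + w 2)) • x) (w 0 • p 0 + w 1 • p 1 + w 2 • p 2)
  have := h.add_le (w 0 • p 0 + w 1 • p 1) (w 2 • p 2)
  have := h.add_le (w 0 • p 0) (w 1 • p 1)
  have h0 := hterm 0
  have h1 := hterm 1
  have h2 := hterm 2
  simp only [kink, hD, Fin.sum_univ_three] at h0 h1 h2 ⊢
  linarith

lemma subset_box : K ⊆ Icc (fun _ => (-5:ℝ)) (fun _ => 5) :=
  fun x hx => ⟨fun i => (abs_le.1 (h.box x hx i)).1, fun i => (abs_le.1 (h.box x hx i)).2⟩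

lemma integral_second_diff_le {ρ : ℝ} (hρ : 0 < ρ) (hρ1 : ρ ≤ 1) (i : Fin 3) :
    ∫ x in Icc (fun _ => (-5:ℝ)) (fun _ : Fin 3 => (5:ℝ)),
      (gauge K (x + Pi.single i ρ) + gauge K (x - Pi.single i ρ) - 2 * gauge K x) ≤ 200 * ρ ^ 2 := by
  set v : Fin 3 → ℝ := Pi.single i ρ with hv
  set B := Icc (fun _ : Fin 3 => (-5:ℝ)) (fun _ => (5:ℝ)) with hB
  set B' := Icc ((fun _ : Fin 3 => (-5:ℝ)) - v) ((fun _ => (5:ℝ)) - v) with hB'
  set Δ : (Fin 3 → ℝ) → ℝ := fun x => gauge K (x + v) - gauge K x with hΔ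
  have hc := h.continuous
  have hΔc : Continuous Δ := by fun_prop
  have hΔb : ∀ x, |Δ x| ≤ ρ := fun x => by
    have := h.lip x v; rwa [hv, l1_single, abs_of_pos hρ] at this
  have hsplit : ∫ x in B, (gauge K (x + v) + gauge K (x - v) - 2 * gauge K x)
      = (∫ x in B, Δ x) - ∫ x in B, Δ (x - v) := by
    rw [← integral_sub (hΔc.continuousOn.integrableOn_compact isCompact_Icc)
      ((show Continuous fun x => Δ (x - v) by fun_prop).continuousOn.integrableOn_compact isCompact_Icc)]
    refine setIntegral_congr_fun measurableSet_Icc fun x _ => ?_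
    simp only [hΔ, sub_add_cancel]; ring
  have hshift : ∫ x in B, Δ (x - v) = ∫ x in B', Δ x := by
    rw [← (measurePreserving_sub_right volume v).setIntegral_preimage_emb
      (MeasurableEquiv.subRight v).measurableEmbedding Δ B']
    congr 2
    ext x
    simp [hB, hB', Pi.le_def]
  have hbd : ∀ S : Set (Fin 3 → ℝ), volume S < ⊤ → |∫ x in S, Δ x| ≤ ρ * volume.real S :=
    fun S hS => by
      have := norm_setIntegral_le_of_norm_le_const (μ := volume) (s := S) (f := Δ) (C := ρ) hS
        (fun x _ => by rw [Real.norm_eq_abs]; exact hΔb x)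
      rwa [Real.norm_eq_abs] at this
  have hI : B ∩ B' = Icc (fun _ : Fin 3 => (-5:ℝ)) ((fun _ => (5:ℝ)) - v) := by
    rw [hB, hB', Icc_inter_Icc]
    congr 1 <;> (funext j; by_cases hj : j = i <;> simp [hv, hj, hρ.le])
  have hvolI : volume.real (B ∩ B') = (10 - ρ) * 100 := by
    rw [hI, Measure.real, Real.volume_Icc_pi, ENNReal.toReal_prod, Fin.prod_univ_three]
    fin_cases i <;> simp [hv] <;> (rw [ENNReal.toReal_ofReal (by linarith)]; ring)
  have hvolB : volume.real B = 1000 := by
    rw [hB, Measure.real, Real.volume_Icc_pi, ENNReal.toReal_prod, Fin.prod_univ_three]; norm_num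
  have hvolB' : volume.real B' = 1000 := by
    rw [hB', Measure.real, Real.volume_Icc_pi, ENNReal.toReal_prod, Fin.prod_univ_three]
    simp; norm_num
  have d1 : volume.real (B \ B') = 100 * ρ := by
    have := measureReal_inter_add_sdiff (μ := volume) (s := B) (measurableSet_Icc : MeasurableSet B')
      isCompact_Icc.measure_lt_top.ne
    linarith
  have d2 : volume.real (B' \ B) = 100 * ρ := by
    have := measureReal_inter_add_sdiff (μ := volume) (s := B') (measurableSet_Icc : MeasurableSet B)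
      isCompact_Icc.measure_lt_top.ne
    rw [inter_comm] at this
    linarith
  have i1 := integral_inter_add_sdiff (μ := volume) (measurableSet_Icc : MeasurableSet B')
    (hΔc.continuousOn.integrableOn_compact (isCompact_Icc : IsCompact B))
  have i2 := integral_inter_add_sdiff (μ := volume) (measurableSet_Icc : MeasurableSet B)
    (hΔc.continuousOn.integrableOn_compact (isCompact_Icc : IsCompact B'))
  rw [inter_comm] at i2
  have b1 := abs_le.1 (hbd (B \ B') ((measure_mono diff_subset).trans_lt isCompact_Icc.measure_lt_top))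
  have b2 := abs_le.1 (hbd (B' \ B) ((measure_mono diff_subset).trans_lt isCompact_Icc.measure_lt_top))
  rw [d1] at b1; rw [d2] at b2
  rw [hsplit, hshift]
  linarith

lemma integral_kink_le {ρ : ℝ} (hρ : 0 < ρ) (hρ1 : ρ ≤ 1) :
    ∫ x in Icc (fun _ => (-5:ℝ)) (fun _ : Fin 3 => (5:ℝ)), kink K ρ x ≤ 600 * ρ ^ 2 := by
  have hc := h.continuous
  unfold kink
  rw [integral_finsetSum _ fun i _ => (show Continuous fun x =>
    gauge K (x + Pi.single i ρ) + gauge K (x - Pi.single i ρ) - 2 * gauge K x by fun_prop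
    ).continuousOn.integrableOn_compact isCompact_Icc]
  refine (Finset.sum_le_sum fun i _ => h.integral_second_diff_le hρ hρ1 i).trans ?_
  simp; ring_nf; rfl

lemma isCompact_kinkLayer (ρ s τ : ℝ) : IsCompact (kinkLayer K ρ s τ) := by
  refine h.compact.of_isClosed_subset ?_ fun x hx => hx.1
  exact h.compact.isClosed.inter ((isClosed_le continuous_const h.continuous).inter
    (isClosed_le continuous_const (h.continuous_kink ρ)))

/-- The kinked part of the outer layer is thin. -/
theorem volume_kinkLayer_le {ρ s τ : ℝ} (hρ : 0 < ρ) (hρ1 : ρ ≤ 1) (hs : 0 < s) (hs1 : s ≤ 1 / 240)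
    (hτ : 0 < τ) : volume.real (kinkLayer K ρ s τ) ≤ 1152000 * (ρ ^ 2 * s / τ) := by
  set Z := kinkLayer K ρ s τ with hZ
  have hZc := h.isCompact_kinkLayer ρ s τ
  set N := ⌊1 / (120 * s)⌋₊ with hN
  have hN1 : (N:ℝ) * (120 * s) ≤ 1 := by
    have := Nat.floor_le (show 0 ≤ 1 / (120 * s) by positivity)
    rwa [← hN, le_div_iff₀ (by positivity)] at this
  have hN2 : 1 / (240 * s) ≤ N := by
    have h1 := (Nat.lt_floor_add_one (1 / (120 * s))).le
    rw [← hN] at h1
    have h2 : (1:ℝ) ≤ 1 / (240 * s) := by rw [le_div_iff₀ (by positivity)]; linarith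
    have h3 : 1 / (120 * s) = 2 * (1 / (240 * s)) := by field_simp; ring
    linarith
  set l : ℕ → ℝ := fun j => 1 - 60 * j * s with hl
  have hlj : ∀ j < N, 1 / 2 ≤ l j ∧ l j ≤ 1 := fun j hj => by
    have : (j:ℝ) ≤ N := by exact_mod_cast hj.le
    have := mul_le_mul_of_nonneg_right this (by positivity : 0 ≤ 120 * s)
    have : 0 ≤ 60 * (j:ℝ) * s := by positivity
    constructor <;> simp only [hl] <;> linarith
  set U := ⋃ j ∈ Finset.range N, l j • Z with hU
  have hmem : ∀ j < N, ∀ x ∈ l j • Z, gauge K x ≤ l j ∧ l j * (1 - 30 * s) ≤ gauge K x ∧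
      τ ≤ kink K ρ x := by
    rintro j hj _ ⟨z, ⟨hz1, hz2, hz3⟩, rfl⟩
    obtain ⟨a, b⟩ := hlj j hj
    rw [h.smul _ (by linarith)]
    refine ⟨?_, mul_le_mul_of_nonneg_left hz2 (by linarith),
      hz3.trans (h.kink_smul ρ z (by linarith) b)⟩
    simpa using mul_le_mul_of_nonneg_left ((h.mem_iff z).1 hz1) (by linarith : 0 ≤ l j)
  have hdisj : (Finset.range N : Set ℕ).PairwiseDisjoint fun j => l j • Z := by
    intro i hi j hj hij
    simp only [Finset.coe_range, mem_Iio] at hi hj
    rw [Function.onFun, Set.disjoint_left]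
    intro x hx hx'
    obtain ⟨a1, b1, -⟩ := hmem i hi x hx
    obtain ⟨a2, b2, -⟩ := hmem j hj x hx'
    rcases lt_or_gt_of_ne hij with hlt | hlt
    · have : (i:ℝ) + 1 ≤ j := by exact_mod_cast hlt
      have := mul_le_mul_of_nonneg_right this (by positivity : 0 ≤ 60 * s)
      have := mul_le_mul_of_nonneg_right (hlj i hi).2 (by positivity : 0 ≤ 30 * s)
      simp only [hl] at a2 b1 this
      linarith
    · have : (j:ℝ) + 1 ≤ i := by exact_mod_cast hlt
      have := mul_le_mul_of_nonneg_right this (by positivity : 0 ≤ 60 * s)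
      have := mul_le_mul_of_nonneg_right (hlj j hj).2 (by positivity : 0 ≤ 30 * s)
      simp only [hl] at a1 b2 this
      linarith
  have hUc : IsCompact U := (Finset.range N).isCompact_biUnion fun j _ => hZc.smul (l j)
  have hUB : U ⊆ Icc (fun _ => (-5:ℝ)) (fun _ : Fin 3 => (5:ℝ)) := iUnion₂_subset fun j hj x hx =>
    h.subset_box ((h.mem_iff x).2
      ((hmem j (Finset.mem_range.1 hj) x hx).1.trans (hlj j (Finset.mem_range.1 hj)).2))
  have hUvol : (N:ℝ) * (volume.real Z / 8) ≤ volume.real U := by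
    rw [hU, measureReal_biUnion_finset hdisj (fun j _ => (hZc.smul (l j)).isClosed.measurableSet)
      (fun j _ => (hZc.smul (l j)).measure_lt_top.ne)]
    calc (N:ℝ) * (volume.real Z / 8) = ∑ _j ∈ Finset.range N, volume.real Z / 8 := by simp
      _ ≤ _ := Finset.sum_le_sum fun j hj => by
          obtain ⟨a, -⟩ := hlj j (Finset.mem_range.1 hj)
          rw [Measure.real, Measure.real, Measure.addHaar_smul, ENNReal.toReal_mul,
            Module.finrank_fintype_fun_eq_card, Fintype.card_fin, abs_pow, abs_of_nonneg (by linarith : 0 ≤ l j),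
            ENNReal.toReal_ofReal (pow_nonneg (by linarith) 3)]
          have := mul_le_mul_of_nonneg_right (pow_le_pow_left₀ (by norm_num) a 3)
            (ENNReal.toReal_nonneg (a := volume Z))
          linarith
  have hMarkov : τ * volume.real U ≤ 600 * ρ ^ 2 := by
    calc τ * volume.real U = ∫ _x in U, τ := by rw [setIntegral_const, smul_eq_mul, mul_comm]
      _ ≤ ∫ x in U, kink K ρ x := by
          refine setIntegral_mono_on (integrableOn_const hUc.measure_lt_top.ne)
            ((h.continuous_kink ρ).continuousOn.integrableOn_compact hUc)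
            hUc.isClosed.measurableSet fun x hx => ?_
          obtain ⟨j, hj, hxj⟩ := mem_iUnion₂.1 hx
          exact (hmem j (Finset.mem_range.1 hj) x hxj).2.2
      _ ≤ ∫ x in Icc (fun _ => (-5:ℝ)) (fun _ : Fin 3 => (5:ℝ)), kink K ρ x :=
          setIntegral_mono_set ((h.continuous_kink ρ).continuousOn.integrableOn_compact isCompact_Icc)
            (ae_of_all _ (h.kink_nonneg ρ)) (LE.le.eventuallyLE hUB)
      _ ≤ _ := h.integral_kink_le hρ hρ1
  have h1 := mul_le_mul_of_nonneg_left hUvol hτ.le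
  have h2 := mul_le_mul_of_nonneg_right hN2
    (mul_nonneg hτ.le (measureReal_nonneg (μ := volume) (s := Z)))
  rw [← mul_div_assoc, le_div_iff₀ hτ]
  rw [div_mul_eq_mul_div, one_mul, div_le_iff₀ (by positivity)] at h2
  have h3 := mul_le_mul_of_nonneg_left (h1.trans hMarkov) (by positivity : 0 ≤ 1920 * s)
  linarith

end Norm3

end

end Vale.Agent.P243
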