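import Vale.Agent.P243.Chord
import Vale.Agent.P243.Kink

/-!
One cylinder against a normalised body: either its volume is well below the extremal value, or a
definite part of it lies in the kinked layer.
-/

open MeasureTheory Set

set_option linter.unusedSectionVars false

namespace Vale.Agent.P243

noncomputable section

variable {F : Type*} [NormedAddCommGroup F] [NormedSpace ℝ F] [MeasurableSpace F] [BorelSpace F]
  [FiniteDimensional ℝ F] (μ : Measure F) [μ.IsAddHaarMeasure]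

/-- Volume in coordinates adapted to a direction. -/
lemma exists_scale (T : (Fin 3 → ℝ) ≃L[ℝ] F × ℝ) :
    ∃ k : ℝ, 0 < k ∧ ∀ S : Set (Fin 3 → ℝ),
      volume.real S = k * (μ.prod (volume : Measure ℝ)).real (T '' S) := by
  let ν := Measure.map T (volume : Measure (Fin 3 → ℝ))
  have : ν.IsAddHaarMeasure := ContinuousLinearEquiv.isAddHaarMeasure_map T volume
  refine ⟨Measure.addHaarScalarFactor ν (μ.prod volume),
    NNReal.coe_pos.2 (Measure.addHaarScalarFactor_pos_of_isAddHaarMeasure ν (μ.prod volume)), fun S => ?_⟩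
  have h1 : ν (T '' S) = volume S := by
    show Measure.map (⇑T.toHomeomorph) volume (T '' S) = volume S
    rw [T.toHomeomorph.measurableEmbedding.map_apply]
    exact congrArg volume (preimage_image_eq S T.injective)
  have h2 := Measure.isAddLeftInvariant_eq_smul ν (μ.prod volume)
  rw [Measure.real, Measure.real, ← h1]
  conv_lhs => rw [h2]
  rw [Measure.smul_apply, ENNReal.smul_def, smul_eq_mul, ENNReal.toReal_mul]
  rfl

lemma exists_good_direction (u n m : Fin 3 → ℝ) :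
    ∃ h : Fin 3 → ℝ, l1 h = 1 ∧ ∑ i, h i * u i = 0 ∧ ∑ i, h i * n i ≤ 0 ∧ ∑ i, h i * m i ≤ 0 := by
  let f : (Fin 3 → ℝ) →ₗ[ℝ] ℝ × ℝ :=
    { toFun := fun x => (∑ i, x i * u i, ∑ i, x i * n i)
      map_add' := fun x y => by simp [add_mul, Finset.sum_add_distrib]
      map_smul' := fun c x => by simp [mul_assoc, Finset.mul_sum] }
  have hker : LinearMap.ker f ≠ ⊥ := LinearMap.ker_ne_bot_of_finrank_lt (by simp)
  obtain ⟨c, hc, hc0⟩ := (Submodule.ne_bot_iff _).1 hker
  have hc' : (∑ i, c i * u i, ∑ i, c i * n i) = ((0:ℝ), (0:ℝ)) := hc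
  rw [Prod.mk.injEq] at hc'
  have hl : 0 < l1 c := by
    refine lt_of_le_of_ne (l1_nonneg c) fun e => hc0 (funext fun i => ?_)
    simpa using (Finset.sum_eq_zero_iff_of_nonneg (fun j _ => abs_nonneg (c j))).1 e.symm i
      (Finset.mem_univ i)
  have key : ∀ a : ℝ, ∀ w : Fin 3 → ℝ, ∑ i, (a • c) i * w i = a * ∑ i, c i * w i := fun a w => by
    simp [Finset.mul_sum, mul_assoc]
  rcases le_total (∑ i, c i * m i) 0 with h | h
  · refine ⟨(l1 c)⁻¹ • c, ?_, ?_, ?_, ?_⟩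
    · rw [l1_smul, abs_of_pos (inv_pos.2 hl), inv_mul_cancel₀ hl.ne']
    · rw [key, hc'.1, mul_zero]
    · rw [key, hc'.2, mul_zero]
    · rw [key]; exact mul_nonpos_of_nonneg_of_nonpos (inv_nonneg.2 hl.le) h
  · refine ⟨(-(l1 c)⁻¹) • c, ?_, ?_, ?_, ?_⟩
    · rw [l1_smul, abs_neg, abs_of_pos (inv_pos.2 hl), inv_mul_cancel₀ hl.ne']
    · rw [key, hc'.1, mul_zero]
    · rw [key, hc'.2, mul_zero]
    · rw [key]
      exact mul_nonpos_of_nonpos_of_nonneg (neg_nonpos.2 (inv_nonneg.2 hl.le)) h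

variable {K : Set (Fin 3 → ℝ)} (hF : Module.finrank ℝ F = 2)
include hF

/-- At an end of a nearly extremal chord the gauge is kinked. -/
lemma kink_at_end (hK : Norm3 K) (T : (Fin 3 → ℝ) ≃L[ℝ] F × ℝ)
    (hV : 0 < (μ.prod (volume : Measure ℝ)).real (T '' K)) {y : F} {a b : ℝ}
    (ha : (y, a) ∈ T '' K) (hb : (y, b) ∈ T '' K) (hlen : chordLen (T '' K) y = b - a)
    {ρ η δ : ℝ} (hρ : 0 < ρ) (hρ1 : ρ ≤ 15) (hη0 : 0 ≤ η) (hη1 : η ≤ 1) (hη : η * 15 ≤ ρ / 2)
    (hδ : δ ≤ (ρ / 15) ^ 3 / 5120)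
    (hext : (3 - δ) * (μ.prod (volume : Measure ℝ)).real (T '' K)
      ≤ chordLen (T '' K) y * μ.real (shadow (T '' K))) :
    η < kink K ρ (T.symm (y, b)) ∨ η < kink K ρ (T.symm (y, a)) := by
  by_contra hcon
  simp only [not_or, not_lt] at hcon
  obtain ⟨hkP, hkQ⟩ := hcon
  set P := T.symm (y, b) with hP
  set Q := T.symm (y, a) with hQ
  have hPK : P ∈ K := by obtain ⟨x, hx, e⟩ := hb; rw [hP, ← e, T.symm_apply_apply]; exact hx
  have hQK : Q ∈ K := by obtain ⟨x, hx, e⟩ := ha; rw [hQ, ← e, T.symm_apply_apply]; exact hx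
  set u := T.symm ((0:F), (1:ℝ))
  obtain ⟨h, hh1, hhu, hhn, hhm⟩ := exists_good_direction u
    (fun i => (gauge K (P + Pi.single i ρ) - gauge K P) / ρ)
    (fun i => (gauge K (Q + Pi.single i ρ) - gauge K Q) / ρ)
  have hl : l1 (ρ • h) ≤ ρ := by rw [l1_smul, hh1, abs_of_pos hρ, mul_one]
  have hnear : ∀ X ∈ K, kink K ρ X ≤ η →
      (∑ i, h i * ((gauge K (X + Pi.single i ρ) - gauge K X) / ρ)) ≤ 0 →
      (1 + η)⁻¹ • (X + ρ • h) ∈ K := by
    intro X hX hk hs
    have h1 := hK.gauge_add_le_linear hρ X (ρ • h) hl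
    have h2 : ∑ i, (ρ • h) i * ((gauge K (X + Pi.single i ρ) - gauge K X) / ρ) ≤ 0 := by
      simp only [Pi.smul_apply, smul_eq_mul, mul_assoc, ← Finset.mul_sum]
      exact mul_nonpos_of_nonneg_of_nonpos hρ.le hs
    rw [hK.mem_iff, hK.smul _ (by positivity), inv_mul_le_iff₀ (by linarith), mul_one]
    have := (hK.mem_iff X).1 hX
    linarith
  have hP' := mem_image_of_mem T (hnear P hPK hkP hhn)
  have hQ' := mem_image_of_mem T (hnear Q hQK hkQ hhm)
  set y' := (1 + η)⁻¹ • (y + ρ • (T h).1) with hy'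
  set c := (T h).2
  have eP : T ((1 + η)⁻¹ • (P + ρ • h)) = (y', (1 + η)⁻¹ * (b + ρ * c)) := by
    rw [map_smul, map_add, map_smul, hP, T.apply_symm_apply]; ext <;> simp [y', c] <;> ring
  have eQ : T ((1 + η)⁻¹ • (Q + ρ • h)) = (y', (1 + η)⁻¹ * (a + ρ * c)) := by
    rw [map_smul, map_add, map_smul, hQ, T.apply_symm_apply]; ext <;> simp [y', c] <;> ring
  rw [eP] at hP'; rw [eQ] at hQ'
  have hKT : IsCompact (T '' K) := hK.compact.image T.continuous
  have hKTc : Convex ℝ (T '' K) := hK.convex.linear_image (T.toLinearEquiv : (Fin 3 → ℝ) →ₗ[ℝ] F × ℝ)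
  have hlong : chordLen (T '' K) y ≤ (1 + η) * chordLen (T '' K) y' := by
    have := mul_le_mul_of_nonneg_left (le_chordLen hKT hKTc hQ' hP') (by linarith : (0:ℝ) ≤ 1 + η)
    rw [hlen]
    have e : (1 + η) * ((1 + η)⁻¹ * (b + ρ * c) - (1 + η)⁻¹ * (a + ρ * c)) = b - a := by
      field_simp; ring
    linarith
  -- the linear functional
  set q := ∑ i, h i * h i with hq
  have hq3 : 1 ≤ 3 * q := by
    have h0 := sq_nonneg (|h 0| - |h 1|)
    have h1 := sq_nonneg (|h 0| - |h 2|)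
    have h2 := sq_nonneg (|h 1| - |h 2|)
    have e : (|h 0| + |h 1| + |h 2|) = 1 := by simpa [l1, Fin.sum_univ_three] using hh1
    have e2 : (|h 0| + |h 1| + |h 2|) ^ 2 = 1 := by rw [e]; norm_num
    simp only [hq, Fin.sum_univ_three]
    nlinarith [sq_abs (h 0), sq_abs (h 1), sq_abs (h 2)]
  let φ3 : (Fin 3 → ℝ) →L[ℝ] ℝ :=
    q⁻¹ • ∑ i, (h i) • (ContinuousLinearMap.proj i : (Fin 3 → ℝ) →L[ℝ] ℝ)
  have hφ3 : ∀ x, φ3 x = q⁻¹ * ∑ i, h i * x i := fun x => by
    simp [φ3, smul_apply]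
  let φ : F →L[ℝ] ℝ := φ3.comp ((T.symm : F × ℝ →L[ℝ] (Fin 3 → ℝ)).comp (ContinuousLinearMap.inl ℝ F ℝ))
  have hφ : ∀ x, φ (T x).1 = φ3 x := fun x => by
    have e : x = T.symm ((T x).1, 0) + (T x).2 • u := by
      rw [← map_smul, ← map_add]; simp
    conv_rhs => rw [e]
    rw [map_add, map_smul, hφ3 u, hhu]
    simp [φ]
  have hW : ∀ z ∈ shadow (T '' K), |φ z| ≤ 15 := by
    rintro _ ⟨_, ⟨x, hx, rfl⟩, rfl⟩
    rw [hφ, hφ3, abs_mul, abs_inv, abs_of_pos (by linarith : 0 < q), inv_mul_le_iff₀ (by linarith)]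
    calc |∑ i, h i * x i| ≤ ∑ i, |h i * x i| := Finset.abs_sum_le_sum_abs _ _
      _ ≤ ∑ i, |h i| * 5 := Finset.sum_le_sum fun i _ => by
          rw [abs_mul]; exact mul_le_mul_of_nonneg_left (hK.box x hx i) (abs_nonneg _)
      _ = 5 := by rw [← Finset.sum_mul]; change l1 h * 5 = 5; rw [hh1, one_mul]
      _ ≤ q * 15 := by linarith
  have hphi : (1 + η) * φ y' = φ y + ρ := by
    have e1 : φ3 h = 1 := by rw [hφ3]; exact inv_mul_cancel₀ (by linarith : 0 < q).ne'
    rw [hy', map_smul, map_add, map_smul, hφ, e1, smul_eq_mul, smul_eq_mul]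
    field_simp
  exact absurd (not_nearly_extremal μ hF hKT hKTc hV ⟨_, hb, rfl⟩ ⟨_, hP', rfl⟩ φ hW hρ hρ1 hη0 hη1
    hη hphi hlong hext) (not_lt.2 hδ)

/-- A short terminal piece of a nearly extremal chord lies in the kinked layer. -/
lemma chord_meets_layer (hK : Norm3 K) (T : (Fin 3 → ℝ) ≃L[ℝ] F × ℝ)
    (hV : 0 < (μ.prod (volume : Measure ℝ)).real (T '' K)) {y : F} (hy : y ∈ shadow (T '' K))
    {ρ η δ s : ℝ} (hρ : 0 < ρ) (hρ1 : ρ ≤ 15) (hη0 : 0 ≤ η) (hη1 : η ≤ 1) (hη : η * 15 ≤ ρ / 2)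
    (hδ : δ ≤ (ρ / 15) ^ 3 / 5120) (hδ1 : δ < 3) (hs : 0 ≤ s) (hs1 : s ≤ 1) (hsη : 720 * s ≤ η)
    (hext : (3 - δ) * (μ.prod (volume : Measure ℝ)).real (T '' K)
      ≤ chordLen (T '' K) y * μ.real (shadow (T '' K))) :
    ∃ c d, d - c = s * chordLen (T '' K) y ∧
      Icc c d ⊆ {t | (y, t) ∈ T '' kinkLayer K ρ s (η / 2)} := by
  have hKT : IsCompact (T '' K) := hK.compact.image T.continuous
  have hKTc : Convex ℝ (T '' K) := hK.convex.linear_image (T.toLinearEquiv : (Fin 3 → ℝ) →ₗ[ℝ] F × ℝ)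
  obtain ⟨a, b, hab, ha, hb, hlen, hmem⟩ := exists_chord_ends hKT hKTc hy
  set u := T.symm ((0:F), (1:ℝ)) with hu
  have hf : 0 < b - a := by
    by_contra hc
    have h0 : chordLen (T '' K) y = 0 := by rw [hlen]; linarith [not_lt.1 hc]
    rw [h0, zero_mul] at hext
    exact absurd hext (not_le.2 (mul_pos (by linarith) hV))
  have hinK : ∀ t, (y, t) ∈ T '' K → T.symm (y, t) ∈ K := by
    rintro t ⟨x, hx, e⟩; rw [← e, T.symm_apply_apply]; exact hx
  have hadd : ∀ t t', T.symm (y, t') = T.symm (y, t) + (t' - t) • u := fun t t' => by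
    rw [hu, ← map_smul, ← map_add]; simp
  have hu0 : 0 < l1 u := by
    refine lt_of_le_of_ne (l1_nonneg u) fun e => ?_
    have : u = 0 := funext fun i => by
      simpa using (Finset.sum_eq_zero_iff_of_nonneg (fun j _ => abs_nonneg (u j))).1 e.symm i
        (Finset.mem_univ i)
    have := congrArg T this
    rw [hu, T.apply_symm_apply, map_zero] at this
    exact one_ne_zero (congrArg Prod.snd this)
  have hlu : (b - a) * l1 u ≤ 30 := by
    have e : (b - a) • u = T.symm (y, b) - T.symm (y, a) := by rw [hadd a b]; abel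
    have h1 : l1 ((b - a) • u) ≤ 30 := by
      rw [e]
      calc l1 (T.symm (y, b) - T.symm (y, a)) ≤ ∑ _i : Fin 3, (10:ℝ) := Finset.sum_le_sum fun i _ => by
            refine (abs_sub _ _).trans ?_
            linarith [hK.box _ (hinK b hb) i, hK.box _ (hinK a ha) i]
        _ = 30 := by norm_num
    rwa [l1_smul, abs_of_pos hf] at h1
  have hbdry : ∀ e, (y, e) ∈ T '' K → (e = a ∨ e = b) → 1 ≤ gauge K (T.symm (y, e)) := by
    intro e he hea
    by_contra hc
    rw [not_le] at hc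
    set ε := (1 - gauge K (T.symm (y, e))) / l1 u with hε
    have hεp : 0 < ε := div_pos (by linarith) hu0
    have hout : ∀ σ : ℝ, |σ| = ε → e + σ ∈ Icc a b := by
      intro σ hσ
      refine (hmem _).1 ⟨T.symm (y, e + σ), ?_, T.apply_symm_apply _⟩
      rw [hK.mem_iff, hadd e (e + σ), add_sub_cancel_left]
      have h1 := abs_le.1 (hK.lip (T.symm (y, e)) (σ • u))
      rw [l1_smul, hσ, hε, div_mul_cancel₀ _ hu0.ne'] at h1
      linarith [h1.2]
    rcases hea with rfl | rfl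
    · have := (hout (-ε) (by rw [abs_neg, abs_of_pos hεp])).1; linarith
    · have := (hout ε (abs_of_pos hεp)).2; linarith
  have key : ∀ e, (y, e) ∈ T '' K → (e = a ∨ e = b) → η < kink K ρ (T.symm (y, e)) →
      ∀ t ∈ Icc a b, |t - e| ≤ s * (b - a) → (y, t) ∈ T '' kinkLayer K ρ s (η / 2) := by
    intro e he hea hk t ht hte
    refine ⟨T.symm (y, t), ⟨hinK t ((hmem t).2 ht), ?_, ?_⟩, T.apply_symm_apply _⟩
    all_goals
      have hv : l1 ((t - e) • u) ≤ 30 * s := by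
        rw [l1_smul]
        have := mul_le_mul_of_nonneg_right hte hu0.le
        have := mul_le_mul_of_nonneg_left hlu hs
        linarith
      rw [hadd e t]
    · have := abs_le.1 (hK.lip (T.symm (y, e)) ((t - e) • u))
      have := hbdry e he hea
      linarith
    · have := hK.kink_lip ρ (T.symm (y, e)) ((t - e) • u)
      linarith
  have hsf : s * (b - a) ≤ b - a := mul_le_of_le_one_left hf.le hs1
  have hsf0 : 0 ≤ s * (b - a) := mul_nonneg hs hf.le
  rcases kink_at_end μ hF hK T hV ha hb hlen hρ hρ1 hη0 hη1 hη hδ hext with hk | hk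
  · refine ⟨b - s * (b - a), b, by rw [hlen]; ring, fun t ht => key b hb (Or.inr rfl) hk t
      ⟨by linarith [ht.1], ht.2⟩ ?_⟩
    rw [abs_le]; exact ⟨by linarith [ht.1], by linarith [ht.2]⟩
  · refine ⟨a, a + s * (b - a), by rw [hlen]; ring, fun t ht => key a ha (Or.inl rfl) hk t
      ⟨ht.1, by linarith [ht.2]⟩ ?_⟩
    rw [abs_le]; exact ⟨by linarith [ht.1], by linarith [ht.2]⟩

omit hF in
lemma inter_slice (T : (Fin 3 → ℝ) ≃L[ℝ] F × ℝ) (B : Set F) (S : Set (Fin 3 → ℝ)) :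
    T '' ({x | (T x).1 ∈ B} ∩ S) = (B ×ˢ univ) ∩ T '' S := by
  rw [show {x | (T x).1 ∈ B} = T ⁻¹' (B ×ˢ univ) by ext x; simp, inter_comm, image_inter_preimage,
    inter_comm]

omit hF in
lemma prod_inter_apply {S : Set (F × ℝ)} (hS : MeasurableSet S) {B : Set F} (hB : MeasurableSet B) :
    (μ.prod (volume : Measure ℝ)) ((B ×ˢ univ) ∩ S) = ∫⁻ y in B, volume {t : ℝ | (y, t) ∈ S} ∂μ := by
  rw [Measure.prod_apply ((hB.prod MeasurableSet.univ).inter hS), ← lintegral_indicator hB]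
  refine lintegral_congr fun y => ?_
  by_cases hy : y ∈ B
  · rw [indicator_of_mem hy]; congr 1; ext t; simp [hy]
  · rw [indicator_of_notMem hy]
    have : Prod.mk y ⁻¹' (B ×ˢ univ ∩ S) = ∅ := by ext t; simp [hy]
    rw [this]; simp

omit hF in
lemma prod_inter_le {S : Set (F × ℝ)} (hS : IsCompact S) {B : Set F} (hB : MeasurableSet B)
    (hBf : μ B ≠ ⊤) {c : ℝ} (hc : 0 ≤ c) (hle : ∀ y ∈ B, chordLen S y ≤ c) :
    (μ.prod (volume : Measure ℝ)).real ((B ×ˢ univ) ∩ S) ≤ c * μ.real B := by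
  refine ENNReal.toReal_le_of_le_ofReal (mul_nonneg hc ENNReal.toReal_nonneg) ?_
  rw [prod_inter_apply μ hS.isClosed.measurableSet hB, ENNReal.ofReal_mul hc, Measure.real,
    ENNReal.ofReal_toReal hBf]
  refine (setLIntegral_mono' hB (g := fun _ => ENNReal.ofReal c) fun y hy => ?_).trans
    (setLIntegral_const _ _).le
  rw [← ofReal_chordLen hS]; exact ENNReal.ofReal_le_ofReal (hle y hy)

/-- The estimate for one cylinder. -/
theorem cylinder_bound (hK : Norm3 K) (T : (Fin 3 → ℝ) ≃L[ℝ] F × ℝ) {B : Set F}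
    (hB : MeasurableSet B) (hBf : μ B ≠ ⊤) (hY : 0 < μ.real (shadow (T '' K)))
    {ρ η δ s : ℝ} (hρ : 0 < ρ) (hρ1 : ρ ≤ 15) (hη0 : 0 ≤ η) (hη1 : η ≤ 1) (hη : η * 15 ≤ ρ / 2)
    (hδ : δ ≤ (ρ / 15) ^ 3 / 5120) (hδ1 : δ < 3) (hs : 0 ≤ s) (hs1 : s ≤ 1) (hsη : 720 * s ≤ η)
    (hVol : 0 < volume.real K) :
    ∃ tb vg : ℝ, 0 ≤ tb ∧
      volume.real ({x | (T x).1 ∈ B} ∩ K) ≤ vg + (3 - δ) * volume.real K * tb ∧
      vg ≤ 3 * volume.real K * (μ.real B / μ.real (shadow (T '' K)) - tb) ∧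
      s * vg ≤ volume.real ({x | (T x).1 ∈ B} ∩ kinkLayer K ρ s (η / 2)) := by
  obtain ⟨k, hk, hscale⟩ := exists_scale μ T
  set KT := T '' K with hKTdef
  set ν := μ.prod (volume : Measure ℝ)
  set A := μ.real (shadow KT)
  have hKT : IsCompact KT := hK.compact.image T.continuous
  have hKTc : Convex ℝ KT := hK.convex.linear_image (T.toLinearEquiv : (Fin 3 → ℝ) →ₗ[ℝ] F × ℝ)
  have hV : 0 < ν.real KT := by
    have := hscale K; rw [this] at hVol; exact pos_of_mul_pos_right hVol hk.le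
  set G := B ∩ {y | (3 - δ) * ν.real KT ≤ chordLen KT y * A} with hG
  have hGm : MeasurableSet G :=
    hB.inter (measurableSet_le measurable_const ((measurable_chordLen hKT).mul_const A))
  have hGf : μ G ≠ ⊤ := measure_ne_top_of_subset inter_subset_left hBf
  have hBGf : μ (B \ G) ≠ ⊤ := measure_ne_top_of_subset sdiff_subset hBf
  have hsplit : μ.real B = μ.real G + μ.real (B \ G) := by
    have := measureReal_inter_add_sdiff (μ := μ) (s := B) hGm hBf
    rw [← this, inter_eq_right.2 inter_subset_left]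
  have hg1 := prod_inter_le μ hKT hGm hGf (c := 3 * ν.real KT / A) (by positivity) fun y _ => by
    rw [le_div_iff₀ hY]; exact chord_mul_shadow_le μ hF hKT hKTc y
  have hb1 := prod_inter_le μ hKT (hB.diff hGm) hBGf (c := (3 - δ) * ν.real KT / A)
    (div_nonneg (mul_nonneg (by linarith) hV.le) hY.le) fun y hy => by
    rw [le_div_iff₀ hY]
    by_contra hc
    exact hy.2 ⟨hy.1, (not_le.1 hc).le⟩
  set Z := T '' kinkLayer K ρ s (η / 2) with hZ
  have hZc : IsCompact Z := (hK.isCompact_kinkLayer ρ s (η / 2)).image T.continuous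
  have hgz : s * ν.real ((G ×ˢ univ) ∩ KT) ≤ ν.real ((B ×ˢ univ) ∩ Z) := by
    have h1 : ENNReal.ofReal s * ν ((G ×ˢ univ) ∩ KT) ≤ ν ((B ×ˢ univ) ∩ Z) := by
      rw [prod_inter_apply μ hKT.isClosed.measurableSet hGm,
        ← lintegral_const_mul' _ _ ENNReal.ofReal_ne_top]
      refine le_trans ?_ (measure_mono (inter_subset_inter_left _
        (prod_mono (inter_subset_left : G ⊆ B) Subset.rfl)))
      rw [prod_inter_apply μ hZc.isClosed.measurableSet hGm]
      refine setLIntegral_mono' hGm fun y hy => ?_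
      rw [← ofReal_chordLen hKT]
      by_cases hyY : y ∈ shadow KT
      · obtain ⟨c, d, e, hsub⟩ :=
          chord_meets_layer μ hF hK T hV hyY hρ hρ1 hη0 hη1 hη hδ hδ1 hs hs1 hsη hy.2
        refine le_trans ?_ (measure_mono hsub)
        rw [Real.volume_Icc, e, ENNReal.ofReal_mul hs]
      · rw [chordLen_eq_zero hyY]; simp
    have hfin : ν ((B ×ˢ univ) ∩ Z) ≠ ⊤ :=
      measure_ne_top_of_subset inter_subset_right hZc.measure_lt_top.ne
    have := ENNReal.toReal_mono hfin h1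
    rwa [ENNReal.toReal_mul, ENNReal.toReal_ofReal hs] at this
  have hcov : ν.real ((B ×ˢ univ) ∩ KT) ≤ ν.real ((G ×ˢ univ) ∩ KT) + ν.real (((B \ G) ×ˢ univ) ∩ KT) := by
    refine le_trans (measureReal_mono (fun p hp => ?_) ?_) (measureReal_union_le _ _)
    · by_cases hpG : p.1 ∈ G
      · exact Or.inl ⟨⟨hpG, hp.1.2⟩, hp.2⟩
      · exact Or.inr ⟨⟨⟨hp.1.1, hpG⟩, hp.1.2⟩, hp.2⟩
    · exact measure_ne_top_of_subset (union_subset inter_subset_right inter_subset_right)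
        hKT.measure_lt_top.ne
  refine ⟨μ.real (B \ G) / A, k * ν.real ((G ×ˢ univ) ∩ KT), by positivity, ?_, ?_, ?_⟩
  · rw [hscale, hscale K, inter_slice]
    have h1 := mul_le_mul_of_nonneg_left hcov hk.le
    have h2 := mul_le_mul_of_nonneg_left hb1 hk.le
    have e : k * ((3 - δ) * ν.real KT / A * μ.real (B \ G))
        = (3 - δ) * (k * ν.real KT) * (μ.real (B \ G) / A) := by ring
    linarith
  · rw [hscale K, hsplit, add_div, add_sub_cancel_right]
    have h1 := mul_le_mul_of_nonneg_left hg1 hk.le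
    have e : k * (3 * ν.real KT / A * μ.real G) = 3 * (k * ν.real KT) * (μ.real G / A) := by ring
    linarith
  · rw [hscale, inter_slice]
    have := mul_le_mul_of_nonneg_left hgz hk.le
    linarith

end

end Vale.Agent.P243
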