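import Mathlib

/-!
Definitions for cylinder coverings.
-/

open MeasureTheory

namespace Vale.Agent.P243

/-- Euclidean three-space. -/
abbrev Space := EuclideanSpace ℝ (Fin 3)

/-- The plane through the origin orthogonal to `u`. -/
noncomputable abbrev perp (u : Space) : Submodule ℝ Space := (ℝ ∙ u)ᗮ

variable {V : Type*} [NormedAddCommGroup V] [InnerProductSpace ℝ V] [FiniteDimensional ℝ V]
  [MeasurableSpace V] [BorelSpace V]

/-- Lebesgue (outer) measure in the subspace `W`, as a real number. -/
noncomputable def area (W : Submodule ℝ V) (B : Set W) : ℝ := (volume : Measure W).real B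

/-- Finite Lebesgue (outer) measure in the subspace `W`. -/
def FiniteArea (W : Submodule ℝ V) (B : Set W) : Prop := (volume : Measure W) B ≠ ⊤

/-- The cylinder with base `B` in `W` and axes orthogonal to `W`. -/
def cylinder (W : Submodule ℝ V) (B : Set W) : Set V := {x | W.orthogonalProjectionOnto x ∈ B}

/-- Area of the orthogonal projection of `K` onto `W`. -/
noncomputable def shadowArea (K : Set V) (W : Submodule ℝ V) : ℝ :=
  area W (W.orthogonalProjectionOnto '' K)

/-- Area in the plane `perp u`. -/
noncomputable def planeArea (u : Space) (B : Set (perp u)) : ℝ := area (perp u) B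

/-- Finite area in the plane `perp u`. -/
def FinitePlaneArea (u : Space) (B : Set (perp u)) : Prop := FiniteArea (perp u) B

/-- The cylinder `B + ℝ u`. -/
def axisCylinder (u : Space) (B : Set (perp u)) : Set Space := cylinder (perp u) B

/-- Area of the orthogonal projection of `K` onto `perp u`. -/
noncomputable def projArea (K : Set Space) (u : Space) : ℝ := shadowArea K (perp u)

end Vale.Agent.P243
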