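import Vale.Agent.P243.Chord

/-!
Centrally symmetric bodies: a long chord away from the centre forces extra volume.
-/

open MeasureTheory Set
open scoped Pointwise

set_option linter.unusedSectionVars false

namespace Vale.Agent.P243

noncomputable section

variable {F : Type*} [NormedAddCommGroup F] [NormedSpace ℝ F] [MeasurableSpace F] [BorelSpace F]
  [FiniteDimensional ℝ F] (μ : Measure F) [μ.IsAddHaarMeasure]

lemma exists_line_coord (hF : Module.finrank ℝ F = 2) {e : F} (he : e ≠ 0) :
    ∃ Φ : (ℝ × ℝ) ≃L[ℝ] F, Φ (0, 1) = e := by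
  obtain ⟨f, hf⟩ : ∃ f : F, f ∉ ℝ ∙ e := by
    by_contra h
    simp only [not_exists, not_not] at h
    have := finrank_span_singleton (K := ℝ) he
    rw [Submodule.eq_top_iff'.2 h, finrank_top, hF] at this
    omega
  let g : ℝ × ℝ →ₗ[ℝ] F := (LinearMap.id.smulRight f).coprod (LinearMap.id.smulRight e)
  have hg : ∀ a b : ℝ, g (a, b) = a • f + b • e := fun a b => by simp [g]
  have hinj : Function.Injective g := by
    rw [injective_iff_map_eq_zero]
    rintro ⟨a, b⟩ h
    rw [hg] at h
    have ha : a = 0 := by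
      by_contra ha
      refine hf ?_
      rw [← inv_smul_smul₀ ha f, eq_neg_of_add_eq_zero_left h]
      exact Submodule.smul_mem _ _ (neg_mem (Submodule.smul_mem _ _ (Submodule.mem_span_singleton_self e)))
    rw [ha, zero_smul, zero_add] at h
    rw [ha, (smul_eq_zero.1 h).resolve_right he]
    rfl
  have hsurj : Function.Surjective g :=
    (LinearMap.injective_iff_surjective_of_finrank_eq_finrank (by rw [hF]; simp)).1 hinj
  exact ⟨(LinearEquiv.ofBijective g ⟨hinj, hsurj⟩).toContinuousLinearEquiv,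
    by show g (0, 1) = e; simp [hg]⟩

/-- Fattening a symmetric planar body along one of its diameters. -/
lemma plane_fatten {P : Set (ℝ × ℝ)} (hP : IsCompact P) (hPc : Convex ℝ P)
    (hsym : ∀ p ∈ P, -p ∈ P) (hmax : ∀ c : ℝ, ((0:ℝ), c) ∈ P → c ≤ 1) {a q : ℝ} (ha : 0 < a)
    (hq : 0 ≤ q) :
    ENNReal.ofReal (a * (a + q)) * volume P ≤ volume
      ((fun p : (ℝ × ℝ) × ℝ => a • p.1 + (q * p.2) • ((0:ℝ), (1:ℝ))) '' (P ×ˢ Icc (-1) 1)) := by
  set D := (fun p : (ℝ × ℝ) × ℝ => a • p.1 + (q * p.2) • ((0:ℝ), (1:ℝ))) '' (P ×ˢ Icc (-1) 1) with hD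
  have hDm : MeasurableSet D := ((hP.prod isCompact_Icc).image (by fun_prop)).isClosed.measurableSet
  let g : ℝ × ℝ → ℝ × ℝ := Prod.map (fun x => a * x) (fun x => (a + q) * x)
  have hg : Measurable g := by fun_prop
  have haq : 0 < a + q := by linarith
  have hsub : volume P ≤ volume (g ⁻¹' D) := by
    rw [Measure.volume_eq_prod, Measure.prod_apply hP.isClosed.measurableSet,
      Measure.prod_apply (hDm.preimage hg)]
    refine lintegral_mono fun x => ?_
    by_cases hx : x ∈ shadow P
    · obtain ⟨α, β, hαβ, hα, hβ, -, hmem⟩ := exists_chord_ends hP hPc hx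
      have hlen : β - α ≤ 2 := by
        have := hPc hβ (hsym _ hα) (by norm_num : (0:ℝ) ≤ 1/2) (by norm_num : (0:ℝ) ≤ 1/2) (by norm_num)
        have h2 : ((1/2:ℝ) • (x, β) + (1/2:ℝ) • -(x, α)) = ((0:ℝ), (β - α)/2) := by
          ext <;> simp <;> ring
        rw [h2] at this
        linarith [hmax _ this]
      have hsec : Prod.mk x ⁻¹' P = Icc α β := by ext t; exact hmem t
      rw [hsec]
      have hI : Icc ((a * α - q) / (a + q)) ((a * β + q) / (a + q)) ⊆ Prod.mk x ⁻¹' (g ⁻¹' D) := by
        rintro t ⟨t1, t2⟩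
        rw [div_le_iff₀ haq] at t1
        rw [le_div_iff₀ haq] at t2
        show g (x, t) ∈ D
        -- choose the point of the chord and the shift
        set z := max α (min β ((t * (a + q) - q) / a)) with hz
        have hz1 : α ≤ z := le_max_left _ _
        have hz2 : z ≤ β := max_le hαβ (min_le_left _ _)
        have k1 : t * (a + q) - a * z ≤ q := by
          have : min β ((t * (a + q) - q) / a) ≤ z := le_max_right _ _
          rcases min_choice β ((t * (a + q) - q) / a) with h | h <;> rw [h] at this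
          · have := mul_le_mul_of_nonneg_left this ha.le; linarith
          · have := mul_le_mul_of_nonneg_left this ha.le
            rw [mul_div_cancel₀ _ ha.ne'] at this; linarith
        have k2 : -q ≤ t * (a + q) - a * z := by
          rcases max_choice α (min β ((t * (a + q) - q) / a)) with h | h
          · rw [← hz] at h; rw [h]; linarith
          · rw [← hz] at h
            have h' : z ≤ (t * (a + q) - q) / a := h ▸ min_le_right _ _
            have := mul_le_mul_of_nonneg_left h' ha.le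
            rw [mul_div_cancel₀ _ ha.ne'] at this; linarith
        rcases eq_or_lt_of_le hq with e | e
        · refine ⟨((x, z), 0), ⟨(hmem z).2 ⟨hz1, hz2⟩, by norm_num⟩, ?_⟩
          ext <;> simp [g]
          subst e; linarith
        · refine ⟨((x, z), (t * (a + q) - a * z) / q), ⟨(hmem z).2 ⟨hz1, hz2⟩, ?_, ?_⟩, ?_⟩
          · rw [le_div_iff₀ e]; linarith
          · rw [div_le_iff₀ e]; linarith
          · ext <;> simp [g]
            field_simp
            ring
      refine le_trans ?_ (measure_mono hI)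
      rw [Real.volume_Icc, Real.volume_Icc]
      refine ENNReal.ofReal_le_ofReal ?_
      rw [← sub_div, le_div_iff₀ haq]
      have := mul_le_mul_of_nonneg_left hlen hq
      linarith
    · have : Prod.mk x ⁻¹' P = ∅ := eq_empty_of_forall_notMem fun t ht => hx ⟨(x, t), ht, rfl⟩
      rw [this]; simp
  have hmap : volume (g ⁻¹' D) = ENNReal.ofReal (a⁻¹ * (a + q)⁻¹) * volume D := by
    rw [← Measure.map_apply hg hDm, Measure.volume_eq_prod,
      ← Measure.map_prod_map _ _ (measurable_const_mul a) (measurable_const_mul (a + q)),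
      Real.map_volume_mul_left ha.ne', Real.map_volume_mul_left haq.ne',
      abs_of_pos (inv_pos.2 ha), abs_of_pos (inv_pos.2 haq),
      Measure.prod_smul_left, Measure.prod_smul_right, smul_smul, Measure.smul_apply, smul_eq_mul,
      ← ENNReal.ofReal_mul (inv_nonneg.2 ha.le)]
  calc ENNReal.ofReal (a * (a + q)) * volume P
      ≤ ENNReal.ofReal (a * (a + q)) * (ENNReal.ofReal (a⁻¹ * (a + q)⁻¹) * volume D) := by
        rw [← hmap]; gcongr
    _ = volume D := by
        rw [← mul_assoc, ← ENNReal.ofReal_mul (by positivity)]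
        have : a * (a + q) * (a⁻¹ * (a + q)⁻¹) = 1 := by field_simp
        rw [this]; simp

variable (hF : Module.finrank ℝ F = 2)
include hF

/-- The same in an abstract plane. -/
lemma fatten {P : Set F} (hP : IsCompact P) (hPc : Convex ℝ P) (hsym : ∀ p ∈ P, -p ∈ P)
    {e : F} (he : e ≠ 0) (hmax : ∀ c : ℝ, c • e ∈ P → c ≤ 1) {a q : ℝ} (ha : 0 < a) (hq : 0 ≤ q) :
    ENNReal.ofReal (a * (a + q)) * μ P ≤
      μ ((fun p : F × ℝ => a • p.1 + (q * p.2) • e) '' (P ×ˢ Icc (-1) 1)) := by
  obtain ⟨Φ, hΦ⟩ := exists_line_coord hF he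
  let ν := Measure.map Φ.symm μ
  have : ν.IsAddHaarMeasure := ContinuousLinearEquiv.isAddHaarMeasure_map Φ.symm μ
  set k := Measure.addHaarScalarFactor ν (volume : Measure (ℝ × ℝ))
  have hsc : ∀ S : Set F, μ S = k * volume (Φ ⁻¹' S) := fun S => by
    have h1 : ν (Φ ⁻¹' S) = μ S := by
      show Measure.map (⇑Φ.symm.toHomeomorph) μ (Φ ⁻¹' S) = μ S
      rw [Φ.symm.toHomeomorph.measurableEmbedding.map_apply]
      congr 1
      ext x; simp
    rw [← h1, Measure.isAddLeftInvariant_eq_smul ν (volume : Measure (ℝ × ℝ))]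
    rfl
  rw [hsc P, hsc, ← mul_assoc, mul_comm (ENNReal.ofReal _), mul_assoc]
  refine mul_le_mul_of_nonneg_left ?_ zero_le
  have hPi : Φ ⁻¹' P = Φ.symm '' P := by ext x; exact ⟨fun h => ⟨Φ x, h, by simp⟩, by rintro ⟨p, hp, rfl⟩; simpa using hp⟩
  refine (plane_fatten (P := Φ ⁻¹' P) (hPi ▸ hP.image Φ.symm.continuous)
    (hPc.linear_preimage (Φ.toLinearEquiv : ℝ × ℝ →ₗ[ℝ] F))
    (fun p hp => by simpa using hsym _ hp) (fun c hc => hmax c ?_) ha hq).trans (measure_mono ?_)
  · have : ((0:ℝ), c) = c • ((0:ℝ), (1:ℝ)) := by simp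
    rw [mem_preimage, this, map_smul, hΦ] at hc
    exact hc
  · rintro _ ⟨⟨p, r⟩, ⟨hp, hr⟩, rfl⟩
    refine ⟨(Φ p, r), ⟨hp, hr⟩, ?_⟩
    show a • Φ p + (q * r) • e = Φ (a • p + (q * r) • ((0:ℝ), (1:ℝ)))
    rw [map_add, map_smul, map_smul, hΦ]

omit hF in
lemma chordLen_neg {K : Set (F × ℝ)} (hK : IsCompact K) (hKc : Convex ℝ K)
    (hsym : ∀ p ∈ K, -p ∈ K) {y : F} (hy : y ∈ shadow K) : chordLen K y ≤ chordLen K (-y) := by
  obtain ⟨a, b, -, ha, hb, e, -⟩ := exists_chord_ends hK hKc hy
  have := le_chordLen hK hKc (y := -y) (a := -b) (b := -a) (by simpa using hsym _ hb) (by simpa using hsym _ ha)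
  linarith

/-- A chord over the point `n • e`, where `e` is on the boundary of the projection. -/
lemma hat_volume {K : Set (F × ℝ)} (hK : IsCompact K) (hKc : Convex ℝ K)
    (hsym : ∀ p ∈ K, -p ∈ K) {e : F} (he : e ≠ 0) (hmax : ∀ c : ℝ, c • e ∈ shadow K → c ≤ 1)
    {n : ℝ} (hn : 0 ≤ n) (hne : n • e ∈ shadow K) :
    (2 + n) * chordLen K (n • e) * μ.real (shadow K) ≤ 6 * (μ.prod volume).real K := by
  set Y := shadow K with hYdef
  have hY : IsCompact Y := isCompact_shadow hK
  have hYc : Convex ℝ Y := convex_shadow hKc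
  have hYs : ∀ p ∈ Y, -p ∈ Y := by rintro _ ⟨p, hp, rfl⟩; exact ⟨-p, hsym p hp, rfl⟩
  set L := chordLen K (n • e) with hL
  rcases eq_or_lt_of_le (chordLen_nonneg (K := K) (n • e)) with h0 | hLp
  · rw [hL, ← h0, mul_zero, zero_mul]; exact mul_nonneg (by norm_num) measureReal_nonneg
  rw [← hL] at hLp
  have hseg : ∀ r ∈ Icc (-1:ℝ) 1, (r * n) • e ∈ Y ∧ L ≤ chordLen K ((r * n) • e) := by
    intro r hr
    have h0 : 0 ≤ (1 - r) / 2 := by linarith [hr.2]
    have h1 : (1 - r) / 2 ≤ 1 := by linarith [hr.1]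
    have e1 : (1 - (1 - r) / 2) • (n • e) + ((1 - r) / 2) • -(n • e) = (r * n) • e := by module
    refine ⟨e1 ▸ hYc hne (hYs _ hne) (by linarith) h0 (by ring), ?_⟩
    have h2 := chordLen_concave hK hKc hne (hYs _ hne) h0 h1
    have h3 := chordLen_neg hK hKc hsym hne
    rw [e1] at h2
    have := mul_le_mul_of_nonneg_left h3 h0
    linarith
  set H := (fun p : (F × ℝ) × ℝ => ((1 - p.2) • p.1.1 + (p.2 * n * p.1.2) • e, p.2 * L))
    '' ((Y ×ˢ Icc (-1:ℝ) 1) ×ˢ Icc (0:ℝ) 1) with hH
  have hHm : MeasurableSet H :=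
    (((hY.prod isCompact_Icc).prod isCompact_Icc).image (by fun_prop)).isClosed.measurableSet
  have hsub : H ⊆ chordHyp K := by
    rintro _ ⟨⟨⟨z, r⟩, s⟩, ⟨⟨hz, hr⟩, s0, s1⟩, rfl⟩
    obtain ⟨m1, m2⟩ := hseg r hr
    have e1 : (1 - s) • z + (s * n * r) • e = (1 - s) • z + s • ((r * n) • e) := by module
    refine ⟨?_, mul_nonneg s0 hLp.le, ?_⟩
    · show (1 - s) • z + (s * n * r) • e ∈ Y
      rw [e1]; exact hYc hz m1 (by linarith) s0 (by ring)
    · show s * L ≤ chordLen K ((1 - s) • z + (s * n * r) • e)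
      rw [e1]
      have := chordLen_concave hK hKc hz m1 s0 s1
      have := mul_le_mul_of_nonneg_left m2 s0
      have := mul_nonneg (by linarith : (0:ℝ) ≤ 1 - s) (chordLen_nonneg (K := K) z)
      linarith
  have hvol : ENNReal.ofReal (L * (2 + n) / 6) * μ Y ≤ (μ.prod volume) H := by
    rw [Measure.prod_apply_symm hHm]
    calc ENNReal.ofReal (L * (2 + n) / 6) * μ Y
        = ∫⁻ r in Ico (0:ℝ) L, ENNReal.ofReal ((1 - r / L) * ((1 - r / L) + r / L * n)) * μ Y := by
          rw [lintegral_mul_const' _ _ hY.measure_lt_top.ne]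
          congr 1
          rw [setLIntegral_congr Ico_ae_eq_Icc, ← ofReal_integral_eq_lintegral_ofReal
            ((Continuous.continuousOn (by fun_prop)).integrableOn_compact isCompact_Icc)
            ((ae_restrict_iff' measurableSet_Icc).2 (ae_of_all _ fun r hr => by
              have h1 : 0 ≤ 1 - r / L := sub_nonneg.2 ((div_le_one hLp).2 hr.2)
              have h2 : 0 ≤ r / L := div_nonneg hr.1 hLp.le
              positivity))]
          congr 1
          rw [integral_Icc_eq_integral_Ioc, ← intervalIntegral.integral_of_le hLp.le,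
            intervalIntegral.integral_comp_div (fun r => (1 - r) * ((1 - r) + r * n)) hLp.ne']
          simp only [zero_div, div_self hLp.ne', smul_eq_mul]
          have : ∀ r : ℝ, (1 - r) * ((1 - r) + r * n) = 1 + (n - 2) * r + (1 - n) * r ^ 2 := fun r => by ring
          simp only [this]
          rw [intervalIntegral.integral_add (Continuous.intervalIntegrable (by fun_prop) _ _)
            (Continuous.intervalIntegrable (by fun_prop) _ _),
            intervalIntegral.integral_add (Continuous.intervalIntegrable (by fun_prop) _ _)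
            (Continuous.intervalIntegrable (by fun_prop) _ _)]
          rw [intervalIntegral.integral_const_mul, intervalIntegral.integral_const_mul,
            intervalIntegral.integral_const, integral_id, integral_pow]
          norm_num
          ring
      _ ≤ ∫⁻ r in Ico (0:ℝ) L, μ ((fun x => (x, r)) ⁻¹' H) := by
          refine setLIntegral_mono' measurableSet_Ico fun r hr => ?_
          have s1 : r / L < 1 := (div_lt_one hLp).2 hr.2
          have s0 : 0 ≤ r / L := div_nonneg hr.1 hLp.le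
          refine (fatten μ hF hY hYc hYs he hmax (a := 1 - r / L) (q := r / L * n) (by linarith)
            (mul_nonneg s0 hn)).trans (measure_mono ?_)
          rintro _ ⟨⟨z, t⟩, hzt, rfl⟩
          refine ⟨((z, t), r / L), ⟨hzt, s0, s1.le⟩, ?_⟩
          simp [div_mul_cancel₀ _ hLp.ne']
      _ ≤ _ := setLIntegral_le_lintegral _ _
  have h1 := ENNReal.toReal_mono hK.measure_lt_top.ne
    (hvol.trans ((measure_mono hsub).trans (prod_chordHyp μ hK).le))
  rw [ENNReal.toReal_mul, ENNReal.toReal_ofReal (by positivity)] at h1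
  change L * (2 + n) / 6 * μ.real Y ≤ (μ.prod volume).real K at h1
  linarith

end

end Vale.Agent.P243
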