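import Vale.Agent.P243.Cylinder

/-!
Coverings of a convex body in space by finitely many cylinders: the total relative base area
exceeds `1/3` by a universal amount.
-/

open MeasureTheory Set Matrix
open scoped RealInnerProductSpace

set_option linter.unusedSectionVars false

namespace Vale.Agent.P243

noncomputable section

/-- The bound for a body in normalised position. -/
theorem normalised_bound {ι : Type*} [Fintype ι] {F : ι → Type*} [∀ i, NormedAddCommGroup (F i)]
    [∀ i, NormedSpace ℝ (F i)] [∀ i, MeasurableSpace (F i)] [∀ i, BorelSpace (F i)]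
    [∀ i, FiniteDimensional ℝ (F i)] (μ : ∀ i, Measure (F i)) [∀ i, (μ i).IsAddHaarMeasure]
    (hF : ∀ i, Module.finrank ℝ (F i) = 2) {K : Set (Fin 3 → ℝ)} (hK : Norm3 K)
    (T : ∀ i, (Fin 3 → ℝ) ≃L[ℝ] F i × ℝ) (B : ∀ i, Set (F i)) (hB : ∀ i, MeasurableSet (B i))
    (hBf : ∀ i, μ i (B i) ≠ ⊤) (hcov : K ⊆ ⋃ i, {x | (T i x).1 ∈ B i}) :
    1/3 + 1/10^37 ≤ ∑ i, (μ i).real (B i) / (μ i).real (shadow (T i '' K)) := by
  obtain ⟨ρ, hρ⟩ : ∃ ρ : ℝ, ρ = 1/10^9 := ⟨_, rfl⟩
  obtain ⟨s, hs⟩ : ∃ s : ℝ, s = ρ/21600 := ⟨_, rfl⟩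
  obtain ⟨δ, hδ⟩ : ∃ δ : ℝ, δ = (ρ/15)^3/5120 := ⟨_, rfl⟩
  have hρ0 : 0 < ρ := by rw [hρ]; norm_num
  have hρ1 : ρ ≤ 1 := by rw [hρ]; norm_num
  have hint : (interior K).Nonempty := ⟨0, mem_interior_iff_mem_nhds.2 hK.mem_nhds⟩
  have hY : ∀ i, 0 < (μ i).real (shadow (T i '' K)) := fun i => by
    refine ENNReal.toReal_pos ?_ (isCompact_shadow (hK.compact.image (T i).continuous)).measure_lt_top.ne
    have ho : IsOpen ((fun x => (T i x).1) '' interior K) :=
      (isOpenMap_fst.comp (T i).toHomeomorph.isOpenMap) _ isOpen_interior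
    refine ((ho.measure_pos (μ i) (hint.image _)).trans_le (measure_mono ?_)).ne'
    rintro _ ⟨x, hx, rfl⟩
    exact ⟨T i x, ⟨x, interior_subset hx, rfl⟩, rfl⟩
  have hVlow : (8:ℝ)/27 ≤ volume.real K := by
    have hsub : Icc (fun _ : Fin 3 => (-(1/3):ℝ)) (fun _ => (1/3:ℝ)) ⊆ K := fun x hx => hK.oct x <| by
      calc l1 x ≤ ∑ _i : Fin 3, (1/3:ℝ) :=
            Finset.sum_le_sum fun i _ => abs_le.2 ⟨hx.1 i, hx.2 i⟩
        _ = 1 := by simp
    have := measureReal_mono (μ := volume) hsub hK.compact.measure_lt_top.ne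
    rw [Measure.real, Real.volume_Icc_pi, ENNReal.toReal_prod, Fin.prod_univ_three] at this
    norm_num at this
    exact this
  have hVp : 0 < volume.real K := lt_of_lt_of_le (by norm_num) hVlow
  choose tb vg htb hvol hvg hz using fun i => cylinder_bound (μ i) (hF i) hK (T i) (hB i) (hBf i) (hY i)
    (ρ := ρ) (η := ρ/30) (δ := δ) (s := s) hρ0 (by linarith) (by positivity) (by linarith) (by linarith)
    hδ.le (by rw [hδ, hρ]; norm_num) (by rw [hs]; positivity) (by rw [hs]; linarith)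
    (by rw [hs]; linarith) hVp
  set C := fun i => {x | (T i x).1 ∈ B i}
  set Z := kinkLayer K ρ s (ρ/30/2) with hZ
  set R := ∑ i, (μ i).real (B i) / (μ i).real (shadow (T i '' K))
  have hZK : Z ⊆ K := fun x hx => hx.1
  have hZm : MeasurableSet Z := (hK.isCompact_kinkLayer _ _ _).isClosed.measurableSet
  have hKfin : volume K ≠ ⊤ := hK.compact.measure_lt_top.ne
  have hZvol : volume.real Z ≤ s * volume.real K / 2 := by
    have h1 := hK.volume_kinkLayer_le (ρ := ρ) (s := s) (τ := ρ/30/2) hρ0 hρ1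
      (by rw [hs]; positivity) (by rw [hs]; linarith) (by positivity)
    have e : 1152000 * (ρ ^ 2 * s / (ρ/30/2)) = 69120000 * ρ * s := by field_simp; ring
    rw [e] at h1
    have hs0 : 0 ≤ s := by rw [hs]; positivity
    have := mul_le_mul_of_nonneg_left hVlow hs0
    have h2 : 69120000 * ρ ≤ 4/27 := by rw [hρ]; norm_num
    have := mul_le_mul_of_nonneg_right h2 hs0
    linarith
  have hsum1 : volume.real K - volume.real Z ≤ ∑ i, volume.real ((C i ∩ K) \ Z) := by
    have h1 := measureReal_inter_add_sdiff (μ := volume) (s := K) hZm hKfin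
    rw [inter_eq_right.2 hZK] at h1
    refine le_trans ?_ (measureReal_iUnion_fintype_le _)
    refine le_trans (by linarith) (measureReal_mono (fun x hx => ?_) ?_)
    · obtain ⟨i, hi⟩ := mem_iUnion.1 (hcov hx.1)
      exact mem_iUnion.2 ⟨i, ⟨hi, hx.1⟩, hx.2⟩
    · exact measure_ne_top_of_subset (iUnion_subset fun i x hx => hx.1.2) hKfin
  have hsum2 : ∀ i, volume.real (C i ∩ Z) + volume.real ((C i ∩ K) \ Z) = volume.real (C i ∩ K) := fun i => by
    have := measureReal_inter_add_sdiff (μ := volume) (s := C i ∩ K) hZm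
      (measure_ne_top_of_subset inter_subset_right hKfin)
    rwa [inter_assoc, inter_eq_right.2 hZK] at this
  have s2 : ∑ i, volume.real (C i ∩ Z) + ∑ i, volume.real ((C i ∩ K) \ Z) = ∑ i, volume.real (C i ∩ K) := by
    rw [← Finset.sum_add_distrib]; exact Finset.sum_congr rfl fun i _ => hsum2 i
  set Tb := ∑ i, tb i
  set Vg := ∑ i, vg i
  have s3 : ∑ i, volume.real (C i ∩ K) ≤ Vg + (3 - δ) * volume.real K * Tb := by
    refine (Finset.sum_le_sum fun i _ => hvol i).trans (le_of_eq ?_)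
    rw [Finset.sum_add_distrib, ← Finset.mul_sum]
  have s4 : Vg ≤ 3 * volume.real K * (R - Tb) := by
    refine (Finset.sum_le_sum fun i _ => hvg i).trans (le_of_eq ?_)
    rw [← Finset.mul_sum, Finset.sum_sub_distrib]
  have s5 : s * Vg ≤ ∑ i, volume.real (C i ∩ Z) := by
    rw [Finset.mul_sum]; exact Finset.sum_le_sum fun i _ => hz i
  have s6 : 0 ≤ ∑ i, volume.real (C i ∩ Z) := Finset.sum_nonneg fun i _ => measureReal_nonneg
  have hTb : 0 ≤ Tb := Finset.sum_nonneg fun i _ => htb i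
  have hδ0 : 0 < δ := by rw [hδ]; positivity
  have hs0 : 0 < s := by rw [hs]; positivity
  by_contra hcon
  rw [not_le] at hcon
  -- bad share
  have hV1 : volume.real K ≤ ∑ i, volume.real (C i ∩ K) := by
    refine le_trans (measureReal_mono (fun x hx => ?_)
      (measure_ne_top_of_subset (iUnion_subset fun i x hx => hx.2) hKfin))
      (measureReal_iUnion_fintype_le fun i => C i ∩ K)
    obtain ⟨i, hi⟩ := mem_iUnion.1 (hcov hx)
    exact mem_iUnion.2 ⟨i, hi, hx⟩
  set V := volume.real K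
  have hE : 3 * R - 1 ≤ δ / 20 := by
    have h2 : (3:ℝ)/10^37 ≤ δ/20 := by rw [hδ, hρ]; norm_num
    linarith
  have hTb1 : Tb ≤ 1/20 := by
    refine le_of_mul_le_mul_left ?_ (mul_pos hVp hδ0)
    have := mul_le_mul_of_nonneg_left hE hVp.le
    linarith
  have hVg1 : (17/20) * V ≤ Vg := by
    have := mul_le_mul_of_nonneg_left hTb1 hVp.le
    have := mul_nonneg (mul_nonneg hδ0.le hVp.le) hTb
    linarith
  have hfinal : s * ((17/20) * V) ≤ s * V / 2 + (δ / 20) * V := by
    have := mul_le_mul_of_nonneg_left hVg1 hs0.le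
    have := mul_le_mul_of_nonneg_left hE hVp.le
    have := mul_nonneg (mul_nonneg hδ0.le hVp.le) hTb
    linarith
  have h4 : δ / 20 < s * (7/20) := by rw [hδ, hs, hρ]; norm_num
  have := mul_lt_mul_of_pos_right h4 hVp
  linarith

/-- Every convex body has an affine image in normalised position. -/
theorem exists_normalisation {K : Set (Fin 3 → ℝ)} (hK : IsCompact K) (hKc : Convex ℝ K)
    (hKi : (interior K).Nonempty) :
    ∃ (c : Fin 3 → ℝ) (L : (Fin 3 → ℝ) ≃L[ℝ] (Fin 3 → ℝ)), Norm3 ((fun x => L (x - c)) '' K) := by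
  obtain ⟨x0, hx0⟩ := hKi
  obtain ⟨r, hr, hball⟩ := Metric.isOpen_iff.1 isOpen_interior x0 hx0
  let mat : (Fin 4 → (Fin 3 → ℝ)) → Matrix (Fin 3) (Fin 3) ℝ :=
    fun p => Matrix.of fun i j => p j.succ i - p 0 i
  have hmatc : Continuous fun p => |(mat p).det| := by
    refine (Continuous.matrix_det ?_).abs
    exact continuous_matrix fun i j => by simp only [mat, Matrix.of_apply]; fun_prop
  have hcpt : IsCompact (univ.pi fun _ : Fin 4 => K) := isCompact_univ_pi fun _ => hK
  obtain ⟨p, hp, hmax⟩ := hcpt.exists_isMaxOn ⟨fun _ => x0, fun _ _ => interior_subset hx0⟩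
    hmatc.continuousOn
  have hp : ∀ j, p j ∈ K := fun j => hp j (mem_univ j)
  set M := mat p with hMdef
  have hdet : M.det ≠ 0 := by
    intro h0
    have hq : (Fin.cons x0 fun j => x0 + Pi.single j (r/2)) ∈ univ.pi fun _ : Fin 4 => K := by
      intro j _
      induction j using Fin.cases with
      | zero => simpa using interior_subset hx0
      | succ j =>
        refine interior_subset (hball ?_)
        simp only [Fin.cons_succ, Metric.mem_ball, dist_eq_norm, add_sub_cancel_left]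
        rw [Pi.norm_single, Real.norm_eq_abs, abs_of_pos (half_pos hr)]
        linarith
    have h2 : |(mat (Fin.cons x0 fun j => x0 + Pi.single j (r/2))).det| ≤ |M.det| := hmax hq
    have e : mat (Fin.cons x0 fun j => x0 + Pi.single j (r/2)) = Matrix.diagonal fun _ : Fin 3 => r/2 := by
      ext i j
      simp [mat, Matrix.diagonal_apply, Pi.single_apply]
    rw [e, Matrix.det_diagonal, h0, abs_zero] at h2
    exact absurd h2 (not_le.2 (abs_pos.2 (by simp [hr.ne'])))
  have hu : IsUnit M.det := isUnit_iff_ne_zero.2 hdet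
  let L0 : (Fin 3 → ℝ) ≃ₗ[ℝ] (Fin 3 → ℝ) := LinearEquiv.ofLinearMap
    (Matrix.toLin' ((4:ℝ) • M⁻¹)) (Matrix.toLin' ((1/4:ℝ) • M))
    (by rw [← Matrix.toLin'_mul, Matrix.smul_mul, Matrix.mul_smul, nonsing_inv_mul _ hu, smul_smul]; norm_num)
    (by rw [← Matrix.toLin'_mul, Matrix.smul_mul, Matrix.mul_smul, mul_nonsing_inv _ hu, smul_smul]; norm_num)
  set c := p 0 + (1/4:ℝ) • (M *ᵥ fun _ => (1:ℝ)) with hc
  refine ⟨c, L0.toContinuousLinearEquiv, ?_⟩
  have hcoe : ∀ x, L0.toContinuousLinearEquiv x = (4:ℝ) • (M⁻¹ *ᵥ x) := fun x => by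
    show (Matrix.toLin' ((4:ℝ) • M⁻¹)) x = _
    rw [Matrix.toLin'_apply, Matrix.smul_mulVec]
  have hbary : ∀ x ∈ K, ∀ j, |(M⁻¹ *ᵥ (x - p 0)) j| ≤ 1 := by
    intro x hx j
    set β := M⁻¹ *ᵥ (x - p 0) with hβ
    have hq : Function.update p j.succ x ∈ univ.pi fun _ : Fin 4 => K := by
      intro i _
      by_cases hi : i = j.succ
      · subst hi; simpa using hx
      · simpa [hi] using hp i
    have h2 : |(mat (Function.update p j.succ x)).det| ≤ |M.det| := hmax hq
    have e : mat (Function.update p j.succ x) = M.updateCol j (fun k => ∑ i, β i • M k i) := by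
      have hMβ : M *ᵥ β = x - p 0 := by
        rw [hβ, mulVec_mulVec, mul_nonsing_inv _ hu, one_mulVec]
      ext i l
      by_cases hl : l = j
      · subst hl
        have := congrFun hMβ i
        simp only [mulVec, dotProduct, Pi.sub_apply] at this
        simp [mat, (Fin.succ_ne_zero _).symm, mul_comm, this]
      · simp [mat, hMdef, hl, (Fin.succ_ne_zero _).symm]
    rw [e, Matrix.det_updateCol_sum, smul_eq_mul, abs_mul] at h2
    exact (mul_le_iff_le_one_left (abs_pos.2 hdet)).1 h2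
  have hsub : ∀ x, M⁻¹ *ᵥ (x - c) = M⁻¹ *ᵥ (x - p 0) - (1/4:ℝ) • fun _ => (1:ℝ) := fun x => by
    rw [hc, sub_add_eq_sub_sub, mulVec_sub _ (x - p 0), mulVec_smul, mulVec_mulVec,
      nonsing_inv_mul _ hu, one_mulVec]
  refine ⟨hK.image (L0.toContinuousLinearEquiv.continuous.comp (continuous_id.sub continuous_const)),
    ?_, ?_, ?_⟩
  · have h1 := (hKc.translate (-c)).linear_image (L0 : (Fin 3 → ℝ) →ₗ[ℝ] (Fin 3 → ℝ))
    rw [image_image] at h1
    simpa [sub_eq_neg_add] using h1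
  · intro z hz
    set w : Fin 3 → ℝ := fun j => (z j + 1)/4 with hw
    refine ⟨p 0 + M *ᵥ w, ?_, ?_⟩
    · have hzb : ∀ j, |z j| ≤ 1 := fun j =>
        (Finset.single_le_sum (f := fun i => |z i|) (fun i _ => abs_nonneg _) (Finset.mem_univ j)).trans hz
      have hzs : |∑ j, z j| ≤ 1 := (Finset.abs_sum_le_sum_abs _ _).trans hz
      have hmem := hKc.sum_mem (t := Finset.univ) (w := Fin.cons (1 - ∑ j, w j) w) (z := p)
        (fun i _ => ?_) ?_ (fun i _ => hp i)
      · convert hmem using 1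
        rw [Fin.sum_univ_succ]
        simp only [Fin.cons_zero, Fin.cons_succ]
        funext k
        simp [M, mat, mulVec, dotProduct, Fin.sum_univ_three]
        ring
      · induction i using Fin.cases with
        | zero =>
          simp only [Fin.cons_zero, hw, Fin.sum_univ_three] at hzs ⊢
          linarith [(abs_le.1 hzs).2]
        | succ j => simp only [Fin.cons_succ, hw]; linarith [(abs_le.1 (hzb j)).1]
      · rw [Fin.sum_univ_succ]; simp
    · show L0.toContinuousLinearEquiv (p 0 + M *ᵥ w - c) = z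
      rw [hcoe, hsub, add_sub_cancel_left, mulVec_mulVec, nonsing_inv_mul _ hu, one_mulVec]
      funext j
      simp [hw]; ring
  · rintro _ ⟨x, hx, rfl⟩ j
    show |L0.toContinuousLinearEquiv (x - c) j| ≤ 5
    rw [hcoe, hsub]
    have := abs_le.1 (hbary x hx j)
    simp only [Pi.smul_apply, Pi.sub_apply, smul_eq_mul, mul_one, abs_le]
    constructor <;> linarith

/-- Coordinates along a unit vector and its orthogonal plane. -/
def axisCoord (u : EuclideanSpace ℝ (Fin 3)) (hu : ‖u‖ = 1) :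
    EuclideanSpace ℝ (Fin 3) ≃L[ℝ] (ℝ ∙ u)ᗮ × ℝ :=
  LinearEquiv.toContinuousLinearEquiv <| LinearEquiv.ofLinearMap
    (LinearMap.prod ((ℝ ∙ u)ᗮ.orthogonalProjectionOnto : EuclideanSpace ℝ (Fin 3) →ₗ[ℝ] (ℝ ∙ u)ᗮ)
      (innerₛₗ ℝ u))
    ((ℝ ∙ u)ᗮ.subtype.coprod (LinearMap.id.smulRight u))
    (by
      apply LinearMap.ext
      rintro ⟨⟨y, hy⟩, t⟩
      have h0 : ⟪u, y⟫ = 0 := Submodule.mem_orthogonal_singleton_iff_inner_right.1 hy
      refine Prod.ext ?_ ?_
      · have h2 : (ℝ ∙ u)ᗮ.orthogonalProjectionOnto u = 0 :=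
          Submodule.orthogonalProjectionOnto_orthogonalComplement_singleton_eq_zero u
        simp [h2]
        exact Submodule.orthogonalProjectionOnto_mem_subspace_eq_self (K := (ℝ ∙ u)ᗮ) ⟨y, hy⟩
      · simp [inner_add_right, real_inner_smul_right, hu, h0])
    (by
      apply LinearMap.ext
      intro x
      have h1 := Submodule.starProjection_add_starProjection_orthogonal (K := ℝ ∙ u) x
      rw [Submodule.starProjection_unit_singleton ℝ hu] at h1
      simp only [Submodule.starProjection_apply] at h1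
      simp [add_comm, Submodule.starProjection_unit_singleton ℝ hu])

lemma axisCoord_fst (u : EuclideanSpace ℝ (Fin 3)) (hu : ‖u‖ = 1) (x : EuclideanSpace ℝ (Fin 3)) :
    (axisCoord u hu x).1 = (ℝ ∙ u)ᗮ.orthogonalProjectionOnto x := rfl

/-- Total relative base area of a cylinder covering exceeds `1/3` by a universal amount. -/
theorem cylinder_covering_bound {ι : Type*} [Fintype ι] (K : Set (EuclideanSpace ℝ (Fin 3)))
    (hK : IsCompact K) (hKc : Convex ℝ K) (hKi : (interior K).Nonempty)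
    (u : ι → EuclideanSpace ℝ (Fin 3)) (hu : ∀ i, ‖u i‖ = 1) (B : ∀ i, Set (ℝ ∙ u i)ᗮ)
    (hB : ∀ i, MeasurableSet (B i)) (hBf : ∀ i, volume (B i) ≠ ⊤)
    (hcov : K ⊆ ⋃ i, {x | (ℝ ∙ u i)ᗮ.orthogonalProjectionOnto x ∈ B i}) :
    1/3 + 1/10^37 ≤
      ∑ i, volume.real (B i) / volume.real ((ℝ ∙ u i)ᗮ.orthogonalProjectionOnto '' K) := by
  set e := EuclideanSpace.equiv (Fin 3) ℝ
  obtain ⟨c, L, hN⟩ := exists_normalisation (hK.image e.continuous)
    (hKc.linear_image (e.toLinearEquiv : EuclideanSpace ℝ (Fin 3) →ₗ[ℝ] (Fin 3 → ℝ)))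
    (by
      obtain ⟨x, hx⟩ := hKi
      exact ⟨e x, e.toHomeomorph.image_interior K ▸ mem_image_of_mem _ hx⟩)
  set T : ∀ i, (Fin 3 → ℝ) ≃L[ℝ] (ℝ ∙ u i)ᗮ × ℝ :=
    fun i => (L.symm.trans e.symm).trans (axisCoord (u i) (hu i))
  set pc : ∀ i, (ℝ ∙ u i)ᗮ := fun i => (ℝ ∙ u i)ᗮ.orthogonalProjectionOnto (e.symm c)
  have hT : ∀ i x, (T i (L (e x - c))).1 = (ℝ ∙ u i)ᗮ.orthogonalProjectionOnto x - pc i := fun i x => by
    simp only [T, pc, ContinuousLinearEquiv.trans_apply, ContinuousLinearEquiv.symm_apply_apply,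
      map_sub]
    rfl
  have hfin : ∀ i, Module.finrank ℝ (ℝ ∙ u i)ᗮ = 2 := fun i => by
    have := Submodule.finrank_add_finrank_orthogonal (ℝ ∙ u i)
    rw [finrank_span_singleton (by intro h; simpa [h] using hu i), finrank_euclideanSpace_fin] at this
    omega
  have := normalised_bound (fun i => (volume : Measure (ℝ ∙ u i)ᗮ)) hfin hN T
    (fun i => (fun y => y + pc i) ⁻¹' B i) (fun i => (hB i).preimage (measurable_add_const _))
    (fun i => by rw [measure_preimage_add_right]; exact hBf i)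
    (by
      rintro _ ⟨_, ⟨x, hx, rfl⟩, rfl⟩
      obtain ⟨i, hi⟩ := mem_iUnion.1 (hcov hx)
      refine mem_iUnion.2 ⟨i, ?_⟩
      show (T i (L (e x - c))).1 + pc i ∈ B i
      rw [hT, sub_add_cancel]; exact hi)
  refine this.trans (le_of_eq (Finset.sum_congr rfl fun i _ => ?_))
  have hs : shadow (T i '' ((fun z => L (z - c)) '' (e '' K)))
      = (fun y => y + pc i) ⁻¹' ((ℝ ∙ u i)ᗮ.orthogonalProjectionOnto '' K) := by
    simp only [shadow, image_image, hT]
    ext y
    simp only [mem_image, mem_preimage]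
    constructor
    · rintro ⟨x, hx, rfl⟩; exact ⟨x, hx, (sub_add_cancel _ _).symm⟩
    · rintro ⟨x, hx, h⟩; exact ⟨x, hx, by rw [h, add_sub_cancel_right]⟩
  rw [hs]
  simp only [Measure.real, measure_preimage_add_right]

/-- The same for the smallest projection. -/
theorem cylinder_covering_bound_min {ι : Type*} [Fintype ι] (K : Set (EuclideanSpace ℝ (Fin 3)))
    (hK : IsCompact K) (hKc : Convex ℝ K) (hKi : (interior K).Nonempty)
    (u : ι → EuclideanSpace ℝ (Fin 3)) (hu : ∀ i, ‖u i‖ = 1) (B : ∀ i, Set (ℝ ∙ u i)ᗮ)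
    (hB : ∀ i, MeasurableSet (B i)) (hBf : ∀ i, volume (B i) ≠ ⊤)
    (hcov : K ⊆ ⋃ i, {x | (ℝ ∙ u i)ᗮ.orthogonalProjectionOnto x ∈ B i}) (a : ℝ)
    (ha : ∀ v : EuclideanSpace ℝ (Fin 3), ‖v‖ = 1 →
      a ≤ volume.real ((ℝ ∙ v)ᗮ.orthogonalProjectionOnto '' K)) :
    (1/3 + 1/10^37) * a ≤ ∑ i, volume.real (B i) := by
  rcases le_or_gt a 0 with h | h
  · exact le_trans (mul_nonpos_of_nonneg_of_nonpos (by positivity) h)
      (Finset.sum_nonneg fun i _ => measureReal_nonneg)
  · refine le_trans (mul_le_mul_of_nonneg_right (cylinder_covering_bound K hK hKc hKi u hu B hB hBf hcov) h.le) ?_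
    rw [Finset.sum_mul]
    refine Finset.sum_le_sum fun i _ => ?_
    have hp : 0 < volume.real ((ℝ ∙ u i)ᗮ.orthogonalProjectionOnto '' K) := lt_of_lt_of_le h (ha _ (hu i))
    rw [div_mul_eq_mul_div, div_le_iff₀ hp]
    exact mul_le_mul_of_nonneg_left (ha _ (hu i)) measureReal_nonneg

end

end Vale.Agent.P243
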