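import Mathlib

/-!
Covering a convex planar set by two families of parallel strips: the relative widths sum to at
least one.
-/

open Set MeasureTheory

set_option linter.unusedVariables false

namespace Vale.Agent.P243

noncomputable section

/-- The inequality along every segment of `C`. -/
def SegIneq (C : Set (ℝ × ℝ)) (F G : ℝ → ℝ) : Prop :=
  ∀ P ∈ C, ∀ Q ∈ C, |Q.1 - P.1| * |Q.2 - P.2|
    ≤ |Q.2 - P.2| * |F Q.1 - F P.1| + |Q.1 - P.1| * |G Q.2 - G P.2|

lemma mem_of_segment {C : Set (ℝ × ℝ)} (hC : Convex ℝ C) {P Q : ℝ × ℝ} (hP : P ∈ C) (hQ : Q ∈ C)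
    {s : ℝ} (h0 : 0 ≤ s) (h1 : s ≤ 1) :
    ((1 - s) * P.1 + s * Q.1, (1 - s) * P.2 + s * Q.2) ∈ C := by
  have := hC hP hQ (by linarith : 0 ≤ 1 - s) h0 (by ring)
  convert this using 1
  ext <;> simp

lemma mem_of_between {C : Set (ℝ × ℝ)} (hC : Convex ℝ C) {a x y b : ℝ} (hx : (a, x) ∈ C)
    (hy : (a, y) ∈ C) (h1 : x ≤ b) (h2 : b ≤ y) : (a, b) ∈ C := by
  rcases eq_or_lt_of_le (h1.trans h2) with e | e
  · rwa [le_antisymm (e ▸ h2) h1]
  · have := mem_of_segment hC hx hy (div_nonneg (sub_nonneg.2 h1) (sub_pos.2 e).le)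
      ((div_le_one (sub_pos.2 e)).2 (by linarith))
    convert this using 2
    · ring
    · field_simp [(sub_pos.2 e).ne']; ring

/-- Same orientation of the two pairs of contact points. -/
lemma quad_same {C : Set (ℝ × ℝ)} (hC : Convex ℝ C) {F G : ℝ → ℝ} (hF : Monotone F) (hG : Monotone G)
    (h : SegIneq C F G) {u d l r : ℝ} (hu : 0 ≤ u) (hud : u ≤ d) (hd : d ≤ 1) (hl : 0 ≤ l)
    (hlr : l ≤ r) (hr : r ≤ 1) (mL : (0, l) ∈ C) (mR : (1, r) ∈ C) (mU : (u, 1) ∈ C)
    (mD : (d, 0) ∈ C) : 1 ≤ F 1 - F 0 + (G 1 - G 0) := by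
  have mA : (u, l) ∈ C := by
    have h1 := mem_of_segment hC mL mR hu (hud.trans hd)
    simp only [mul_zero, zero_add, mul_one] at h1
    rcases eq_or_lt_of_le (hu.trans hud) with e | e
    · have : u = 0 := le_antisymm (by linarith) hu
      rw [this]; exact mL
    · have h2 := mem_of_segment hC mL mD (div_nonneg hu e.le) ((div_le_one e).2 hud)
      simp only [mul_zero, zero_add, add_zero, div_mul_cancel₀ _ e.ne'] at h2
      refine mem_of_between hC h2 h1 ?_ ?_
      · have := mul_nonneg (div_nonneg hu e.le) hl; linarith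
      · have := mul_nonneg hu (sub_nonneg.2 hlr); linarith
  have mB : (d, r) ∈ C := by
    have h1 := mem_of_segment hC mL mR (hu.trans hud) hd
    simp only [mul_zero, zero_add, mul_one] at h1
    rcases eq_or_lt_of_le (hud.trans hd) with e | e
    · have : d = 1 := le_antisymm hd (by linarith)
      rw [this]; exact mR
    · have he : 0 < 1 - u := by linarith
      have h2 := mem_of_segment hC mU mR (div_nonneg (sub_nonneg.2 hud) he.le)
        ((div_le_one he).2 (by linarith))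
      simp only [mul_one] at h2
      have e1 : (1 - (d - u)/(1 - u)) * u + (d - u)/(1 - u) = d := by field_simp; ring
      rw [e1] at h2
      refine mem_of_between hC h1 h2 ?_ ?_
      · have := mul_nonneg (sub_nonneg.2 hd) (sub_nonneg.2 hlr); linarith
      · have h3 : (d - u)/(1 - u) ≤ 1 := (div_le_one he).2 (by linarith)
        have := mul_nonneg (sub_nonneg.2 h3) (sub_nonneg.2 hr); linarith
  have sLU := h _ mL _ mU
  have sLD := h _ mL _ mD
  have sUR := h _ mU _ mR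
  have sDR := h _ mD _ mR
  have sAB := h _ mA _ mB
  have a1 := hF hu
  have a2 := hF hud
  have a3 := hF hd
  have b1 := hG hl
  have b2 := hG hlr
  have b3 := hG hr
  simp only at sLU sLD sUR sDR sAB
  rw [abs_of_nonneg (sub_nonneg.2 hu), abs_of_nonneg (by linarith : 0 ≤ (1:ℝ) - l),
    abs_of_nonneg (by linarith : 0 ≤ F u - F 0), abs_of_nonneg (by linarith : 0 ≤ G 1 - G l)] at sLU
  rw [abs_of_nonneg (by linarith : 0 ≤ d - 0), abs_of_nonpos (by linarith : (0:ℝ) - l ≤ 0),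
    abs_of_nonneg (by linarith : 0 ≤ F d - F 0), abs_of_nonpos (by linarith : G 0 - G l ≤ 0)] at sLD
  rw [abs_of_nonneg (by linarith : 0 ≤ 1 - u), abs_of_nonpos (by linarith : r - 1 ≤ 0),
    abs_of_nonneg (by linarith : 0 ≤ F 1 - F u), abs_of_nonpos (by linarith : G r - G 1 ≤ 0)] at sUR
  rw [abs_of_nonneg (by linarith : 0 ≤ 1 - d), abs_of_nonneg (by linarith : 0 ≤ r - 0),
    abs_of_nonneg (by linarith : 0 ≤ F 1 - F d), abs_of_nonneg (by linarith : 0 ≤ G r - G 0)] at sDR
  rw [abs_of_nonneg (by linarith : 0 ≤ d - u), abs_of_nonneg (by linarith : 0 ≤ r - l),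
    abs_of_nonneg (by linarith : 0 ≤ F d - F u), abs_of_nonneg (by linarith : 0 ≤ G r - G l)] at sAB
  linarith

/-- Opposite orientation, first half. -/
lemma quad_opp {C : Set (ℝ × ℝ)} {F G : ℝ → ℝ} (hF : Monotone F) (hG : Monotone G)
    (h : SegIneq C F G) {u d l r : ℝ} (hu : 0 ≤ u) (hud : u ≤ d) (hd : d ≤ 1) (hr : 0 ≤ r)
    (hrl : r ≤ l) (hl : l ≤ 1) (hX : (1 - d) * (1 - l) ≤ u * r)
    (hud' : 0 < d) (hrl' : 0 < l) (mL : (0, l) ∈ C) (mR : (1, r) ∈ C) (mU : (u, 1) ∈ C)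
    (mD : (d, 0) ∈ C) : 1 ≤ F 1 - F 0 + (G 1 - G 0) := by
  have sLU := h _ mL _ mU
  have sLD := h _ mL _ mD
  have sLR := h _ mL _ mR
  have sDR := h _ mD _ mR
  have sUD := h _ mU _ mD
  have a1 := hF hu
  have a2 := hF hud
  have a3 := hF hd
  have b1 := hG hr
  have b2 := hG hrl
  have b3 := hG hl
  simp only at sLU sLD sLR sDR sUD
  rw [abs_of_nonneg (sub_nonneg.2 hu), abs_of_nonneg (by linarith : 0 ≤ (1:ℝ) - l),
    abs_of_nonneg (by linarith : 0 ≤ F u - F 0), abs_of_nonneg (by linarith : 0 ≤ G 1 - G l)] at sLU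
  rw [abs_of_nonneg (by linarith : 0 ≤ d - 0), abs_of_nonpos (by linarith : (0:ℝ) - l ≤ 0),
    abs_of_nonneg (by linarith : 0 ≤ F d - F 0), abs_of_nonpos (by linarith : G 0 - G l ≤ 0)] at sLD
  rw [abs_of_nonneg (by linarith : (0:ℝ) ≤ 1 - 0), abs_of_nonpos (by linarith : r - l ≤ 0),
    abs_of_nonneg (by linarith : 0 ≤ F 1 - F 0), abs_of_nonpos (by linarith : G r - G l ≤ 0)] at sLR
  rw [abs_of_nonneg (by linarith : 0 ≤ 1 - d), abs_of_nonneg (by linarith : 0 ≤ r - 0),
    abs_of_nonneg (by linarith : 0 ≤ F 1 - F d), abs_of_nonneg (by linarith : 0 ≤ G r - G 0)] at sDR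
  rw [abs_of_nonneg (by linarith : 0 ≤ d - u), abs_of_nonpos (by linarith : (0:ℝ) - 1 ≤ 0),
    abs_of_nonneg (by linarith : 0 ≤ F d - F u), abs_of_nonpos (by linarith : G 0 - G 1 ≤ 0)] at sUD
  set e1 := u * l + d * (1 - l) with he1
  set e2 := r * d + l * (1 - d) with he2
  have he1' : 0 ≤ e1 := by
    have := mul_nonneg hu hrl'.le; have := mul_nonneg hud'.le (sub_nonneg.2 hl); linarith
  have he2' : 0 ≤ e2 := by
    have := mul_nonneg hr hud'.le; have := mul_nonneg hrl'.le (sub_nonneg.2 hd); linarith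
  rcases eq_or_lt_of_le he1' with z1 | z1
  · have h1 : u * l = 0 := by nlinarith [mul_nonneg hu hrl'.le, mul_nonneg hud'.le (sub_nonneg.2 hl)]
    have h2 : d * (1 - l) = 0 := by linarith [he1, z1]
    have u0 : u = 0 := by simpa [hrl'.ne'] using h1
    have l1' : l = 1 := by have : 1 - l = 0 := by simpa [hud'.ne'] using h2
                           linarith
    subst u0 l1'
    rcases eq_or_lt_of_le he2' with z2 | z2
    · have r0 : r = 0 := by nlinarith [mul_nonneg hr hud'.le]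
      subst r0
      nlinarith
    · refine le_of_mul_le_mul_left ?_ z2
      have k1 := mul_le_mul_of_nonneg_left sLR (sub_nonneg.2 hd)
      have k2 := mul_le_mul_of_nonneg_left sLD hr
      linarith
  rcases eq_or_lt_of_le he2' with z2 | z2
  · have h1 : l * (1 - d) = 0 := by
      nlinarith [mul_nonneg hr hud'.le, mul_nonneg hrl'.le (sub_nonneg.2 hd)]
    have h2 : r * d = 0 := by linarith [he2, z2]
    have r0 : r = 0 := by simpa [hud'.ne'] using h2
    have d1 : d = 1 := by have : 1 - d = 0 := by simpa [hrl'.ne'] using h1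
                          linarith
    subst r0 d1
    refine le_of_mul_le_mul_left ?_ z1
    have k1 := mul_le_mul_of_nonneg_left sUD (sub_nonneg.2 hl)
    have k2 := mul_le_mul_of_nonneg_left sLD hu
    linarith
  refine le_of_mul_le_mul_left ?_ (mul_pos z1 z2)
  have k1 := mul_le_mul_of_nonneg_left sLU z2.le
  have k2 := mul_le_mul_of_nonneg_left sUD (mul_nonneg z2.le (sub_nonneg.2 hl))
  have k3 := mul_le_mul_of_nonneg_left sDR z1.le
  have k4 := mul_le_mul_of_nonneg_left sLR (mul_nonneg z1.le (sub_nonneg.2 hd))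
  have k5 := mul_le_mul_of_nonneg_left sLD (sub_nonneg.2 hX)
  simp only [he1, he2] at k1 k2 k3 k4 k5 ⊢
  linarith

lemma segIneq_reflect {C : Set (ℝ × ℝ)} {F G : ℝ → ℝ} (h : SegIneq C F G) :
    SegIneq ((fun p : ℝ × ℝ => (1 - p.1, 1 - p.2)) ⁻¹' C) (fun a => -F (1 - a)) (fun b => -G (1 - b)) := by
  intro P hP Q hQ
  have := h _ hP _ hQ
  simp only [sub_sub_sub_cancel_left, neg_sub_neg] at this ⊢
  rw [abs_sub_comm Q.1, abs_sub_comm Q.2, abs_sub_comm (F (1 - P.1)), abs_sub_comm (G (1 - P.2))]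
  exact this

lemma segIneq_flip {C : Set (ℝ × ℝ)} {F G : ℝ → ℝ} (h : SegIneq C F G) :
    SegIneq ((fun p : ℝ × ℝ => (p.1, 1 - p.2)) ⁻¹' C) F (fun b => -G (1 - b)) := by
  intro P hP Q hQ
  have := h _ hP _ hQ
  simp only [sub_sub_sub_cancel_left, neg_sub_neg] at this ⊢
  rw [abs_sub_comm Q.2, abs_sub_comm (G (1 - P.2))]
  exact this

lemma convex_reflect {C : Set (ℝ × ℝ)} (hC : Convex ℝ C) :
    Convex ℝ ((fun p : ℝ × ℝ => (1 - p.1, 1 - p.2)) ⁻¹' C) := by
  intro P hP Q hQ a b ha hb hab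
  have := hC hP hQ ha hb hab
  simp only [mem_preimage] at this ⊢
  convert this using 1
  ext <;> simp <;> linear_combination -hab

lemma convex_flip {C : Set (ℝ × ℝ)} (hC : Convex ℝ C) :
    Convex ℝ ((fun p : ℝ × ℝ => (p.1, 1 - p.2)) ⁻¹' C) := by
  intro P hP Q hQ a b ha hb hab
  have := hC hP hQ ha hb hab
  simp only [mem_preimage] at this ⊢
  convert this using 1
  ext <;> simp <;> linear_combination -hab

lemma monotone_neg_reflect {F : ℝ → ℝ} (hF : Monotone F) : Monotone fun a => -F (1 - a) :=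
  fun a b hab => neg_le_neg (hF (by linarith))

lemma quad_aligned {C : Set (ℝ × ℝ)} (hC : Convex ℝ C) {F G : ℝ → ℝ} (hF : Monotone F) (hG : Monotone G)
    (h : SegIneq C F G) {u d l r : ℝ} (hu : 0 ≤ u) (hud : u ≤ d) (hd : d ≤ 1) (hl : l ∈ Icc (0:ℝ) 1)
    (hr : r ∈ Icc (0:ℝ) 1) (mL : (0, l) ∈ C) (mR : (1, r) ∈ C) (mU : (u, 1) ∈ C)
    (mD : (d, 0) ∈ C) : 1 ≤ F 1 - F 0 + (G 1 - G 0) := by
  rcases le_total l r with hlr | hrl
  · exact quad_same hC hF hG h hu hud hd hl.1 hlr hr.2 mL mR mU mD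
  -- degenerate contact pairs
  rcases eq_or_lt_of_le hl.1 with l0 | l0
  · exact quad_same hC hF hG h hu hud hd hl.1 (by linarith [hr.1]) hr.2 mL mR mU mD
  rcases eq_or_lt_of_le hr.2 with r1 | r1
  · exact quad_same hC hF hG h hu hud hd hl.1 (by linarith [hl.2]) hr.2 mL mR mU mD
  rcases eq_or_lt_of_le (hu.trans hud) with d0 | d0
  · -- both top and bottom contacts at the left end: a vertical segment
    have u0 : u = 0 := by linarith
    have := h _ mD _ mU
    rw [u0, ← d0] at this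
    have h2 : (0, (1:ℝ)) ∈ C := by rwa [u0] at mU
    have h3 : (0, (0:ℝ)) ∈ C := by rwa [← d0] at mD
    have a := h _ h3 _ mR
    have b := h _ h2 _ mR
    simp only [sub_zero, abs_one, abs_of_nonneg hr.1,
      abs_of_nonneg (sub_nonneg.2 (hF zero_le_one)), abs_of_nonneg (sub_nonneg.2 (hG hr.1))] at a
    simp only [sub_zero, abs_one, abs_sub_comm r 1, abs_sub_comm (G r), abs_of_nonneg (sub_nonneg.2 hr.2),
      abs_of_nonneg (sub_nonneg.2 (hF zero_le_one)), abs_of_nonneg (sub_nonneg.2 (hG hr.2))] at b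
    linarith
  rcases eq_or_lt_of_le (hud.trans hd) with u1 | u1
  · have d1 : d = 1 := by linarith
    have h2 : (1, (1:ℝ)) ∈ C := by rwa [u1] at mU
    have h3 : (1, (0:ℝ)) ∈ C := by rwa [d1] at mD
    have a := h _ mL _ h3
    have b := h _ mL _ h2
    simp only [sub_zero, zero_sub, abs_neg, abs_one, abs_of_nonneg hl.1, abs_sub_comm (G 0),
      abs_of_nonneg (sub_nonneg.2 (hF zero_le_one)), abs_of_nonneg (sub_nonneg.2 (hG hl.1))] at a
    simp only [sub_zero, abs_one, abs_of_nonneg (sub_nonneg.2 hl.2),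
      abs_of_nonneg (sub_nonneg.2 (hF zero_le_one)), abs_of_nonneg (sub_nonneg.2 (hG hl.2))] at b
    linarith
  rcases le_total ((1 - d) * (1 - l)) (u * r) with hX | hX
  · exact quad_opp hF hG h hu hud hd hr.1 hrl hl.2 hX d0 l0 mL mR mU mD
  · have := quad_opp (u := 1 - d) (d := 1 - u) (l := 1 - r) (r := 1 - l)
      (monotone_neg_reflect hF) (monotone_neg_reflect hG) (segIneq_reflect h) (by linarith) (by linarith)
      (by linarith) (by linarith [hl.2]) (by linarith) (by linarith [hr.1]) (by linarith) (by linarith)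
      (by linarith) (by simpa using mR) (by simpa using mL) (by simpa using mD) (by simpa using mU)
    simp only [sub_self, sub_zero] at this
    linarith

/-- The normalised planar inequality. -/
lemma quad_ineq {C : Set (ℝ × ℝ)} (hC : Convex ℝ C) {F G : ℝ → ℝ} (hF : Monotone F) (hG : Monotone G)
    (h : SegIneq C F G) {u d l r : ℝ} (hu : u ∈ Icc (0:ℝ) 1) (hd : d ∈ Icc (0:ℝ) 1) (hl : l ∈ Icc (0:ℝ) 1)
    (hr : r ∈ Icc (0:ℝ) 1) (mL : (0, l) ∈ C) (mR : (1, r) ∈ C) (mU : (u, 1) ∈ C)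
    (mD : (d, 0) ∈ C) : 1 ≤ F 1 - F 0 + (G 1 - G 0) := by
  rcases le_total u d with hud | hdu
  · exact quad_aligned hC hF hG h hu.1 hud hd.2 hl hr mL mR mU mD
  · have := quad_aligned (convex_flip hC) hF (monotone_neg_reflect hG) (segIneq_flip h) (u := d) (d := u)
      (l := 1 - l) (r := 1 - r) hd.1 hdu hu.2 ⟨by linarith [hl.2], by linarith [hl.1]⟩
      ⟨by linarith [hr.2], by linarith [hr.1]⟩ (by simpa using mL) (by simpa using mR)
      (by simpa using mD) (by simpa using mU)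
    simp only [sub_self, sub_zero] at this
    linarith

end

end Vale.Agent.P243
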