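import Vale.Agent.P243.Main
import Vale.Agent.P243.Hat

/-!
Centrally symmetric bodies: the weight one plus twice the gauge, discretised in homothetic copies.
-/

open MeasureTheory Set
open scoped Pointwise

set_option linter.unusedSectionVars false

namespace Vale.Agent.P243

noncomputable section

/-- The scales of the homothetic copies. -/
def level (N j : ℕ) : ℝ := ((j : ℝ) + 1) / N

lemma level_mem {N j : ℕ} (hj : j < N) : level N j ∈ Icc (0:ℝ) 1 := by
  have : (j : ℝ) + 1 ≤ N := by exact_mod_cast hj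
  exact ⟨div_nonneg (by positivity) (Nat.cast_nonneg _), (div_le_one (by linarith [Nat.cast_nonneg (α := ℝ) j])).2 this⟩

lemma level_sum_pos {N : ℕ} (hN : 0 < N) {n : ℝ} (hn0 : 0 ≤ n) (hn1 : n ≤ 1) :
    (1 - n) ^ 2 ≤ 2 / N * ∑ j ∈ Finset.range N, max (level N j - n) 0 := by
  have hNR : (0:ℝ) < N := Nat.cast_pos.2 hN
  let φ : ℕ → ℝ := fun j => (max ((j:ℝ) / N - n) 0) ^ 2
  have step : ∀ j ∈ Finset.range N, φ (j + 1) - φ j ≤ 2 / N * max (level N j - n) 0 := by
    intro j _
    simp only [φ, level, Nat.cast_add, Nat.cast_one]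
    set u := max (((j:ℝ) + 1) / N - n) 0 with hu
    set v := max ((j:ℝ) / N - n) 0 with hv
    have hu0 : 0 ≤ u := le_max_right _ _
    have huv : v ≤ u := max_le_max_right 0 (by gcongr; linarith)
    have hd : u - v ≤ 1 / N := by
      rw [sub_le_iff_le_add, hu]
      refine max_le ?_ (by positivity)
      have := le_max_left ((j:ℝ) / N - n) 0
      rw [← hv] at this
      have e : ((j:ℝ) + 1) / N = (j:ℝ) / N + 1 / N := by ring
      linarith
    calc u ^ 2 - v ^ 2 = (u - v) * (u + v) := by ring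
      _ ≤ (1 / N) * (2 * u) := mul_le_mul hd (by linarith) (by linarith [le_max_right ((j:ℝ) / N - n) 0]) (by positivity)
      _ = 2 / N * u := by ring
  have := Finset.sum_le_sum step
  rw [Finset.sum_range_sub, ← Finset.mul_sum] at this
  have e1 : φ N = (1 - n) ^ 2 := by
    simp only [φ]; rw [div_self hNR.ne', max_eq_left (by linarith)]
  have e2 : φ 0 = 0 := by simp [φ, hn0]
  linarith

lemma level_sum_cube {N : ℕ} (hN : 0 < N) :
    2 / (N:ℝ) * ∑ j ∈ Finset.range N, level N j ^ 3 ≤ 1 / 2 + 2 / N := by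
  have key : ∀ M : ℕ, 4 * ∑ j ∈ Finset.range M, ((j:ℝ) + 1) ^ 3 = (M:ℝ) ^ 2 * ((M:ℝ) + 1) ^ 2 := by
    intro M
    induction M with
    | zero => simp
    | succ M ih => rw [Finset.sum_range_succ, mul_add, ih]; push_cast; ring
  have hNR : (1:ℝ) ≤ N := Nat.one_le_cast.2 hN
  simp only [level, div_pow]
  rw [← Finset.sum_div]
  have e : ∑ j ∈ Finset.range N, ((j:ℝ) + 1) ^ 3 = (N:ℝ) ^ 2 * ((N:ℝ) + 1) ^ 2 / 4 := by
    rw [← key N]; ring
  rw [e]
  field_simp
  nlinarith

variable {F : Type*} [NormedAddCommGroup F] [NormedSpace ℝ F] [MeasurableSpace F] [BorelSpace F]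
  [FiniteDimensional ℝ F] (μ : Measure F) [μ.IsAddHaarMeasure] (hF : Module.finrank ℝ F = 2)
include hF

/-- The weighted length of one chord. -/
lemma weighted_chord {K : Set (F × ℝ)} (hK : IsCompact K) (hKc : Convex ℝ K)
    (hsym : ∀ p ∈ K, -p ∈ K) (hY : 0 < μ.real (shadow K)) {N : ℕ} (hN : 0 < N) (y : F) :
    3 * chordLen K y ≤ 6 * (μ.prod volume).real K / μ.real (shadow K)
      + 2 / N * ∑ j ∈ Finset.range N, chordLen (level N j • K) y := by
  have hsum0 : 0 ≤ 2 / (N:ℝ) * ∑ j ∈ Finset.range N, chordLen (level N j • K) y :=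
    mul_nonneg (by positivity) (Finset.sum_nonneg fun j _ => chordLen_nonneg y)
  set c := 6 * (μ.prod volume).real K / μ.real (shadow K) with hc
  have hc0 : 0 ≤ c := by positivity
  by_cases hy : y ∈ shadow K
  swap
  · rw [chordLen_eq_zero hy]; linarith
  set Y := shadow K with hYdef
  have hYc : IsCompact Y := isCompact_shadow hK
  set S := Prod.fst '' ((Icc (0:ℝ) 1 ×ˢ Y) ∩ {q | q.1 • q.2 = y}) with hS
  have hSc : IsCompact S := (((isCompact_Icc.prod hYc).inter_right
    (isClosed_eq (by fun_prop) continuous_const))).image continuous_fst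
  obtain ⟨n, ⟨⟨n', e⟩, ⟨⟨⟨hn0, hn1⟩, he⟩, hey⟩, rfl⟩, hleast⟩ :=
    hSc.exists_isLeast ⟨1, (1, y), ⟨⟨⟨zero_le_one, le_rfl⟩, hy⟩, one_smul ℝ y⟩, rfl⟩
  simp only [mem_ofPred_eq] at hey hn0 hn1 he hleast ⊢
  set h := chordLen K y with hh
  have hbound : (2 + n') * h ≤ c := by
    rw [hc, le_div_iff₀ hY]
    rcases eq_or_lt_of_le hn0 with e0 | e0
    · have := chord_mul_shadow_le μ hF hK hKc y
      rw [← e0]; linarith
    have hene : e ≠ 0 := by
      intro h0
      have : (0:ℝ) ∈ S := ⟨(0, e), ⟨⟨⟨le_rfl, zero_le_one⟩, he⟩, by simp [← hey, h0]⟩, rfl⟩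
      linarith [hleast this]
    have := hat_volume μ hF hK hKc hsym hene (fun r hr => ?_) hn0 (hey.symm ▸ hy)
    · rw [hey] at this; exact this
    · by_contra hr1
      rw [not_le] at hr1
      have : n' / r ∈ S := ⟨(n' / r, r • e), ⟨⟨⟨by positivity, (div_le_one (by linarith)).2 (by linarith)⟩, hr⟩,
        by simp [smul_smul, div_mul_cancel₀ _ (by linarith : r ≠ 0), hey]⟩, rfl⟩
      have h2 := hleast this
      rw [le_div_iff₀ (by linarith)] at h2
      have h3 := mul_lt_mul_of_pos_left hr1 e0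
      linarith
  rcases eq_or_lt_of_le hn1 with e1 | e1
  · rw [e1] at hbound; linarith
  obtain ⟨a, b, hab, ha, hb, hlen, -⟩ := exists_chord_ends hK hKc hy
  obtain ⟨⟨w1, w2⟩, hw, rfl⟩ := he
  have hj : ∀ j ∈ Finset.range N, h * max (level N j - n') 0 ≤ (1 - n') * chordLen (level N j • K) y := by
    intro j hj
    have ht := level_mem (Finset.mem_range.1 hj)
    set t := level N j
    rcases le_or_gt t n' with h1 | h1
    · rw [max_eq_right (by linarith), mul_zero]
      exact mul_nonneg (by linarith) (chordLen_nonneg y)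
    rw [max_eq_left (by linarith)]
    set θ := (t - n') / (1 - n') with hθ
    have hθ0 : 0 ≤ θ := div_nonneg (by linarith) (by linarith)
    have hθ1 : θ ≤ 1 := (div_le_one (by linarith)).2 (by linarith [ht.2])
    have htp : 0 < t := by linarith
    have hθt : (1 - θ) * n' + θ = t := by
      have : 1 - n' ≠ 0 := by linarith
      rw [hθ]; field_simp; ring
    have hend : ∀ r, (y, r) ∈ K → (y, (1 - θ) * (n' * w2) + θ * r) ∈ t • K := by
      intro r hr
      rw [Set.mem_smul_set_iff_inv_smul_mem₀ htp.ne']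
      have := hKc hw hr (div_nonneg (mul_nonneg (by linarith : 0 ≤ 1 - θ) hn0) htp.le)
        (div_nonneg hθ0 htp.le) (by rw [← add_div, hθt, div_self htp.ne'])
      convert this using 1
      have hey' : n' • w1 = y := hey
      ext
      · simp only [Prod.smul_mk, Prod.mk_add_mk]
        have e2 : y = (1 - θ) • (n' • w1) + θ • y := by rw [hey']; module
        conv_lhs => rw [e2]
        module
      · simp only [Prod.smul_mk, Prod.mk_add_mk, smul_eq_mul]; ring
    have hl := le_chordLen (hK.smul t) (hKc.smul t) (hend a ha) (hend b hb)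
    have hl2 := mul_le_mul_of_nonneg_left hl (by linarith : 0 ≤ 1 - n')
    have e3 : (1 - n') * θ = t - n' := by
      have : 1 - n' ≠ 0 := by linarith
      rw [hθ]; field_simp
    have e4 : (1 - n') * θ * (b - a) = (t - n') * (b - a) := by rw [e3]
    have hh' : h = b - a := hlen
    rw [hh']
    linarith
  have h1 := Finset.sum_le_sum hj
  rw [← Finset.mul_sum, ← Finset.mul_sum] at h1
  have h2 := mul_le_mul_of_nonneg_left h1 (by positivity : 0 ≤ 2 / (N:ℝ))
  have h3 := mul_le_mul_of_nonneg_left (level_sum_pos hN hn0 hn1) (chordLen_nonneg (K := K) y)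
  rw [← hh] at h3
  have h4 : (1 - n') * ((1 - n') * h) ≤ (1 - n') * (2 / N * ∑ j ∈ Finset.range N, chordLen (level N j • K) y) := by
    linarith
  have h5 := le_of_mul_le_mul_left h4 (by linarith)
  linarith

omit hF in
lemma inter_integral {S : Set (F × ℝ)} (hS : IsCompact S) {B : Set F} (hB : MeasurableSet B) :
    IntegrableOn (chordLen S) B μ ∧
      (μ.prod (volume : Measure ℝ)).real ((B ×ˢ univ) ∩ S) = ∫ y in B, chordLen S y ∂μ := by
  have h1 : ∫⁻ y in B, ENNReal.ofReal (chordLen S y) ∂μ = (μ.prod (volume : Measure ℝ)) ((B ×ˢ univ) ∩ S) := by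
    rw [prod_inter_apply μ hS.isClosed.measurableSet hB]
    exact lintegral_congr fun y => ofReal_chordLen hS y
  constructor
  · refine (lintegral_ofReal_ne_top_iff_integrable (measurable_chordLen hS).aestronglyMeasurable
      (ae_of_all _ fun y => chordLen_nonneg y)).1 ?_
    rw [h1]
    exact measure_ne_top_of_subset inter_subset_right hS.measure_lt_top.ne
  · rw [integral_eq_lintegral_of_nonneg_ae (ae_of_all _ fun y => chordLen_nonneg y)
      (measurable_chordLen hS).aestronglyMeasurable, h1]; rfl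

/-- The weighted volume of one cylinder. -/
lemma weighted_cylinder {K : Set (F × ℝ)} (hK : IsCompact K) (hKc : Convex ℝ K)
    (hsym : ∀ p ∈ K, -p ∈ K) (hY : 0 < μ.real (shadow K)) {N : ℕ} (hN : 0 < N) {B : Set F}
    (hB : MeasurableSet B) (hBf : μ B ≠ ⊤) :
    3 * (μ.prod volume).real ((B ×ˢ univ) ∩ K) ≤
      6 * (μ.prod volume).real K * (μ.real B / μ.real (shadow K))
      + 2 / N * ∑ j ∈ Finset.range N, (μ.prod volume).real ((B ×ˢ univ) ∩ level N j • K) := by
  have : IsFiniteMeasure (μ.restrict B) := isFiniteMeasure_restrict.2 hBf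
  have hi := fun j => (inter_integral μ (hK.smul (level N j)) hB).1
  simp only [(inter_integral μ hK hB).2, (inter_integral μ (hK.smul _) hB).2]
  rw [← integral_finsetSum _ fun j _ => hi j, ← integral_const_mul, ← integral_const_mul]
  set c := 6 * (μ.prod volume).real K / μ.real (shadow K)
  have h2 := (integrable_finsetSum (Finset.range N) fun j _ => hi j).const_mul (2 / (N:ℝ))
  refine (setIntegral_mono ((inter_integral μ hK hB).1.const_mul 3) ((integrable_const c).add h2)
    (fun y => weighted_chord μ hF hK hKc hsym hY hN y)).trans (le_of_eq ?_)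
  simp only [Pi.add_apply]
  rw [integral_add (integrable_const c) h2, setIntegral_const, smul_eq_mul]
  simp only [c]
  ring

omit hF

/-- The weighted covering argument in coordinates. -/
theorem symmetric_normalised {ι : Type*} [Fintype ι] {F : ι → Type*} [∀ i, NormedAddCommGroup (F i)]
    [∀ i, NormedSpace ℝ (F i)] [∀ i, MeasurableSpace (F i)] [∀ i, BorelSpace (F i)]
    [∀ i, FiniteDimensional ℝ (F i)] (μ : ∀ i, Measure (F i)) [∀ i, (μ i).IsAddHaarMeasure]
    (hF : ∀ i, Module.finrank ℝ (F i) = 2) {K : Set (Fin 3 → ℝ)} (hK : IsCompact K)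
    (hKc : Convex ℝ K) (hKi : (interior K).Nonempty) (hsym : ∀ p ∈ K, -p ∈ K)
    (T : ∀ i, (Fin 3 → ℝ) ≃L[ℝ] F i × ℝ) (B : ∀ i, Set (F i)) (hB : ∀ i, MeasurableSet (B i))
    (hBf : ∀ i, μ i (B i) ≠ ⊤) (hcov : K ⊆ ⋃ i, {x | (T i x).1 ∈ B i}) :
    5 / 12 ≤ ∑ i, (μ i).real (B i) / (μ i).real (shadow (T i '' K)) := by
  obtain ⟨x0, hx0⟩ := hKi.mono interior_subset
  have h0 : (0 : Fin 3 → ℝ) ∈ K := by
    have := hKc hx0 (hsym _ hx0) (by norm_num : (0:ℝ) ≤ 1/2) (by norm_num : (0:ℝ) ≤ 1/2) (by norm_num)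
    simpa using this
  set V := volume.real K
  have hV : 0 < V := ENNReal.toReal_pos
    ((isOpen_interior.measure_pos volume hKi).trans_le (measure_mono interior_subset)).ne'
    hK.measure_lt_top.ne
  set R := ∑ i, (μ i).real (B i) / (μ i).real (shadow (T i '' K)) with hR
  set C := fun i => {x | (T i x).1 ∈ B i}
  have hCm : ∀ i, MeasurableSet (C i) := fun i => (hB i).preimage (by fun_prop)
  have hfin : ∀ S : Set (Fin 3 → ℝ), volume (S ∩ K) ≠ ⊤ := fun S =>
    measure_ne_top_of_subset inter_subset_right hK.measure_lt_top.ne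
  have hsub : ∀ S ⊆ K, volume.real S ≤ ∑ i, volume.real (C i ∩ S) := by
    intro S hS
    refine le_trans (measureReal_mono (fun x hx => ?_)
      (measure_ne_top_of_subset (iUnion_subset fun i => inter_subset_right.trans hS) hK.measure_lt_top.ne))
      (measureReal_iUnion_fintype_le _)
    obtain ⟨i, hi⟩ := mem_iUnion.1 (hcov (hS hx))
    exact mem_iUnion.2 ⟨i, hi, hx⟩
  have main : ∀ N : ℕ, 0 < N → 5 / 2 - 2 / (N:ℝ) ≤ 6 * R := by
    intro N hN
    have hcyl : ∀ i, 3 * volume.real (C i ∩ K) ≤ 6 * V * ((μ i).real (B i) / (μ i).real (shadow (T i '' K)))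
        + 2 / N * ∑ j ∈ Finset.range N, volume.real (C i ∩ level N j • K) := by
      intro i
      obtain ⟨k, hk, hscale⟩ := exists_scale (μ i) (T i)
      have hKT : IsCompact (T i '' K) := hK.image (T i).continuous
      have hYp : 0 < (μ i).real (shadow (T i '' K)) := by
        refine ENNReal.toReal_pos ?_ (isCompact_shadow hKT).measure_lt_top.ne
        have hne : (interior (T i '' K)).Nonempty := by
          have : interior (T i '' K) = T i '' interior K := ((T i).toHomeomorph.image_interior K).symm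
          rw [this]; exact hKi.image _
        exact ((isOpenMap_fst _ isOpen_interior).measure_pos (μ i) (hne.image _)
          |>.trans_le (measure_mono (image_mono interior_subset))).ne'
      have hw := weighted_cylinder (μ i) (hF i) hKT
        (hKc.linear_image ((T i).toLinearEquiv : (Fin 3 → ℝ) →ₗ[ℝ] F i × ℝ))
        (by rintro _ ⟨p, hp, rfl⟩; exact ⟨-p, hsym p hp, map_neg _ _⟩) hYp hN (hB i) (hBf i)
      have es : ∀ t : ℝ, t • (T i '' K) = T i '' (t • K) := fun t => (image_smul_set (T i) t K).symm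
      simp only [es, ← inter_slice] at hw
      have h3 := mul_le_mul_of_nonneg_left hw hk.le
      have e0 : V = k * ((μ i).prod volume).real (T i '' K) := hscale K
      simp only [C, hscale, e0, ← Finset.mul_sum]
      linarith
    have htK : ∀ j ∈ Finset.range N, level N j • K ⊆ K := by
      rintro j hj _ ⟨x, hx, rfl⟩
      exact hKc.smul_mem_of_zero_mem h0 hx (level_mem (Finset.mem_range.1 hj))
    have hvt : ∀ j, volume.real (level N j • K) = level N j ^ 3 * V := fun j => by
      rw [Measure.real, Measure.addHaar_smul, ENNReal.toReal_mul, ENNReal.toReal_ofReal (abs_nonneg _)]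
      have : 0 ≤ level N j := div_nonneg (by positivity) (Nat.cast_nonneg _)
      simp [abs_of_nonneg, this, V, Measure.real]
    have hshell : ∀ j ∈ Finset.range N, V - level N j ^ 3 * V
        ≤ ∑ i, (volume.real (C i ∩ K) - volume.real (C i ∩ level N j • K)) := by
      intro j hj
      have hm : MeasurableSet (level N j • K) := (hK.smul _).isClosed.measurableSet
      have := hsub (K \ level N j • K) sdiff_subset
      rw [measureReal_sdiff (htK j hj) hm hK.measure_lt_top.ne, hvt] at this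
      refine this.trans (le_of_eq (Finset.sum_congr rfl fun i _ => ?_))
      have e : C i ∩ (K \ level N j • K) = (C i ∩ K) \ (C i ∩ level N j • K) := by
        ext x; simp only [mem_inter_iff, mem_sdiff]; tauto
      rw [e, measureReal_sdiff (inter_subset_inter_right _ (htK j hj)) ((hCm i).inter hm) (hfin _)]
    have h1 := hsub K Subset.rfl
    have h2 := mul_le_mul_of_nonneg_left (Finset.sum_le_sum hshell) (by positivity : 0 ≤ 2 / (N:ℝ))
    have h3 := Finset.sum_le_sum fun i (_ : i ∈ Finset.univ) => hcyl i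
    simp only [Finset.sum_sub_distrib, Finset.sum_add_distrib, ← Finset.mul_sum, ← Finset.sum_mul,
      Finset.sum_const, Finset.card_range, nsmul_eq_mul] at h2 h3
    rw [Finset.sum_comm (s := Finset.range N)] at h2
    have e2 : 2 / (N:ℝ) * ((N:ℝ) * V) = 2 * V := by
      have : (N:ℝ) ≠ 0 := by exact_mod_cast hN.ne'
      field_simp
    have e3 : ∀ x : ℝ, 2 / (N:ℝ) * ((N:ℝ) * x) = 2 * x := fun x => by
      have : (N:ℝ) ≠ 0 := by exact_mod_cast hN.ne'
      field_simp
    have h4 := mul_le_mul_of_nonneg_right (level_sum_cube hN) hV.le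
    rw [mul_sub, mul_sub, e2, e3] at h2
    rw [← hR] at h3
    refine le_of_mul_le_mul_right (a := V) ?_ hV
    linarith
  by_contra hc
  rw [not_le] at hc
  obtain ⟨N, hN⟩ := exists_nat_gt (2 / (5 / 2 - 6 * R))
  have hd : 0 < 5 / 2 - 6 * R := by linarith
  have hNp : (0:ℝ) < N := lt_trans (by positivity) hN
  have h := main N (Nat.cast_pos.1 hNp)
  rw [div_lt_iff₀ hd] at hN
  have h' : 2 / (N:ℝ) < 5 / 2 - 6 * R := by rw [div_lt_iff₀ hNp]; linarith
  linarith

/-- Relative base area of a covering of a centrally symmetric body. -/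
theorem symmetric_bound {ι : Type*} [Fintype ι] (K : Set (EuclideanSpace ℝ (Fin 3)))
    (hK : IsCompact K) (hKc : Convex ℝ K) (hKi : (interior K).Nonempty)
    (c : EuclideanSpace ℝ (Fin 3)) (hsym : ∀ x ∈ K, (2:ℝ) • c - x ∈ K)
    (u : ι → EuclideanSpace ℝ (Fin 3)) (hu : ∀ i, ‖u i‖ = 1) (B : ∀ i, Set (ℝ ∙ u i)ᗮ)
    (hB : ∀ i, MeasurableSet (B i)) (hBf : ∀ i, volume (B i) ≠ ⊤)
    (hcov : K ⊆ ⋃ i, {x | (ℝ ∙ u i)ᗮ.orthogonalProjectionOnto x ∈ B i}) :
    5 / 12 ≤
      ∑ i, volume.real (B i) / volume.real ((ℝ ∙ u i)ᗮ.orthogonalProjectionOnto '' K) := by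
  set e := EuclideanSpace.equiv (Fin 3) ℝ
  set K' := (fun x => e (x - c)) '' K with hK'
  set T : ∀ i, (Fin 3 → ℝ) ≃L[ℝ] (ℝ ∙ u i)ᗮ × ℝ := fun i => e.symm.trans (axisCoord (u i) (hu i))
  set pc : ∀ i, (ℝ ∙ u i)ᗮ := fun i => (ℝ ∙ u i)ᗮ.orthogonalProjectionOnto c
  have hT : ∀ i x, (T i (e (x - c))).1 = (ℝ ∙ u i)ᗮ.orthogonalProjectionOnto x - pc i := fun i x => by
    simp only [T, pc, ContinuousLinearEquiv.trans_apply, ContinuousLinearEquiv.symm_apply_apply, map_sub]
    rfl
  have hfin : ∀ i, Module.finrank ℝ (ℝ ∙ u i)ᗮ = 2 := fun i => by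
    have := Submodule.finrank_add_finrank_orthogonal (ℝ ∙ u i)
    rw [finrank_span_singleton (by intro h; simpa [h] using hu i), finrank_euclideanSpace_fin] at this
    omega
  have hK'c : Convex ℝ K' := by
    have := (hKc.translate (-c)).linear_image (e.toLinearEquiv : EuclideanSpace ℝ (Fin 3) →ₗ[ℝ] (Fin 3 → ℝ))
    rw [image_image] at this
    simpa [K', sub_eq_neg_add] using this
  have hK'i : (interior K').Nonempty := by
    obtain ⟨x, hx⟩ := hKi
    let h := (Homeomorph.addRight (-c)).trans e.toHomeomorph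
    have e' : K' = h '' K := image_congr fun x _ => by simp [h, sub_eq_add_neg]
    rw [e', ← h.image_interior K]
    exact ⟨_, mem_image_of_mem _ hx⟩
  have := symmetric_normalised (fun i => (volume : Measure (ℝ ∙ u i)ᗮ)) hfin
    (K := K') (hK.image (e.continuous.comp (continuous_id.sub continuous_const))) hK'c hK'i
    (by
      rintro _ ⟨x, hx, rfl⟩
      refine ⟨(2:ℝ) • c - x, hsym x hx, ?_⟩
      show e ((2:ℝ) • c - x - c) = -e (x - c)
      rw [← map_neg]; congr 1; module)
    T (fun i => (fun y => y + pc i) ⁻¹' B i) (fun i => (hB i).preimage (measurable_add_const _))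
    (fun i => by rw [measure_preimage_add_right]; exact hBf i)
    (by
      rintro _ ⟨x, hx, rfl⟩
      obtain ⟨i, hi⟩ := mem_iUnion.1 (hcov hx)
      refine mem_iUnion.2 ⟨i, ?_⟩
      show (T i (e (x - c))).1 + pc i ∈ B i
      rw [hT, sub_add_cancel]; exact hi)
  refine this.trans (le_of_eq (Finset.sum_congr rfl fun i _ => ?_))
  have hs : shadow (T i '' K')
      = (fun y => y + pc i) ⁻¹' ((ℝ ∙ u i)ᗮ.orthogonalProjectionOnto '' K) := by
    simp only [hK', shadow, image_image, hT]
    ext y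
    simp only [mem_image, mem_preimage]
    constructor
    · rintro ⟨x, hx, rfl⟩; exact ⟨x, hx, (sub_add_cancel _ _).symm⟩
    · rintro ⟨x, hx, h⟩; exact ⟨x, hx, by rw [h, add_sub_cancel_right]⟩
  rw [hs]
  simp only [Measure.real, measure_preimage_add_right]

end

end Vale.Agent.P243
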