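import Vale.Agent.P243.Chord
import Vale.Agent.P243.PlanarTwo

/-!
A body covered by cylinders along two coordinate axes: slicing parallel to the two axes.
-/

open MeasureTheory Set

set_option linter.unusedSectionVars false

namespace Vale.Agent.P243

noncomputable section

lemma volume_preimage_affine (α : ℝ) {β : ℝ} (hβ : β ≠ 0) (A : Set ℝ) :
    volume ((fun s => α + β * s) ⁻¹' A) = ENNReal.ofReal |β⁻¹| * volume A := by
  rw [show (fun s => α + β * s) ⁻¹' A = (β * ·) ⁻¹' ((fun y => α + y) ⁻¹' A) from rfl,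
    Real.volume_preimage_mul_left hβ, measure_preimage_add]

lemma measure_real_uIcc_sub {T : Set ℝ} (hT : MeasurableSet T) {a b : ℝ} (ha : 0 ≤ a) (hb : 0 ≤ b) :
    volume.real (T ∩ uIcc a b) =
      |volume.real (T ∩ Icc 0 b) - volume.real (T ∩ Icc 0 a)| := by
  wlog hab : a ≤ b generalizing a b
  · rw [uIcc_comm, abs_sub_comm]; exact this hb ha (le_of_not_ge hab)
  have hfin : ∀ x y : ℝ, volume (T ∩ Icc x y) ≠ ⊤ := fun x y =>
    measure_ne_top_of_subset inter_subset_right measure_Icc_lt_top.ne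
  have hfin' : volume (T ∩ Ioc a b) ≠ ⊤ :=
    measure_ne_top_of_subset inter_subset_right measure_Ioc_lt_top.ne
  have e : T ∩ Icc 0 b = (T ∩ Icc 0 a) ∪ (T ∩ Ioc a b) := by
    rw [← inter_union_distrib_left, Icc_union_Ioc_eq_Icc ha hab]
  rw [uIcc_of_le hab, e, measureReal_union
    (Disjoint.mono inter_subset_right inter_subset_right
      (Set.disjoint_left.2 fun x hx hx' => (lt_irrefl x) (lt_of_le_of_lt hx.2 hx'.1)))
    (hT.inter measurableSet_Ioc) (hfin 0 a) hfin', add_sub_cancel_left, abs_of_nonneg measureReal_nonneg]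
  refine measureReal_congr ?_
  exact Filter.EventuallyEq.inter (Filter.EventuallyEq.rfl) (Ioc_ae_eq_Icc (μ := volume)).symm

/-- A convex planar set covered by two families of parallel strips. -/
theorem planar_strips {C : Set (ℝ × ℝ)} (hCc : Convex ℝ C)
    {S T : Set ℝ} (hS : MeasurableSet S) (hT : MeasurableSet T)
    (hcov : ∀ p ∈ C, p.1 ∈ T ∨ p.2 ∈ S) {a0 a1 b0 b1 : ℝ} (ha : a0 < a1) (hb : b0 < b1)
    (hfst : Prod.fst '' C = Icc a0 a1) (hsnd : Prod.snd '' C = Icc b0 b1) :
    1 ≤ volume.real (T ∩ Icc a0 a1) / (a1 - a0) + volume.real (S ∩ Icc b0 b1) / (b1 - b0) := by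
  set p := a1 - a0
  set q := b1 - b0
  have hp : 0 < p := sub_pos.2 ha
  have hq : 0 < q := sub_pos.2 hb
  set φ : ℝ × ℝ → ℝ × ℝ := fun x => (a0 + p * x.1, b0 + q * x.2)
  set C' := φ ⁻¹' C
  set T' := (fun s => a0 + p * s) ⁻¹' T
  set S' := (fun s => b0 + q * s) ⁻¹' S
  have hT' : MeasurableSet T' := hT.preimage (by fun_prop)
  have hS' : MeasurableSet S' := hS.preimage (by fun_prop)
  have hC' : Convex ℝ C' := by
    intro P hP Q hQ a b h1 h2 h3
    have := hCc hP hQ h1 h2 h3
    simp only [C', mem_preimage] at this ⊢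
    convert this using 1
    ext <;> simp [φ] <;> [linear_combination -a0 * h3; linear_combination -b0 * h3]
  have hbox : ∀ P ∈ C', 0 ≤ P.1 ∧ 0 ≤ P.2 := by
    intro P hP
    have h1 : a0 + p * P.1 ∈ Icc a0 a1 := hfst ▸ ⟨φ P, hP, rfl⟩
    have h2 : b0 + q * P.2 ∈ Icc b0 b1 := hsnd ▸ ⟨φ P, hP, rfl⟩
    exact ⟨nonneg_of_mul_nonneg_right (by linarith [h1.1] : 0 ≤ p * P.1) hp,
      nonneg_of_mul_nonneg_right (by linarith [h2.1] : 0 ≤ q * P.2) hq⟩
  set F : ℝ → ℝ := fun a => volume.real (T' ∩ Icc 0 a)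
  set G : ℝ → ℝ := fun a => volume.real (S' ∩ Icc 0 a)
  have hmono : ∀ A : Set ℝ, Monotone fun a : ℝ => volume.real (A ∩ Icc 0 a) := fun A a b hab =>
    measureReal_mono (inter_subset_inter_right _ (Icc_subset_Icc_right hab))
      (measure_ne_top_of_subset inter_subset_right measure_Icc_lt_top.ne)
  have hseg : SegIneq C' F G := by
    intro P hP Q hQ
    obtain ⟨p1, p2⟩ := hbox P hP
    obtain ⟨q1, q2⟩ := hbox Q hQ
    rcases eq_or_ne (Q.1 - P.1) 0 with e1 | e1
    · rw [e1]; simp; positivity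
    rcases eq_or_ne (Q.2 - P.2) 0 with e2 | e2
    · rw [e2]; simp; positivity
    show _ ≤ _ * |F Q.1 - F P.1| + _ * |G Q.2 - G P.2|
    rw [← measure_real_uIcc_sub hT' p1 q1, ← measure_real_uIcc_sub hS' p2 q2]
    set X := (fun s => P.1 + (Q.1 - P.1) * s) ⁻¹' (T' ∩ uIcc P.1 Q.1) with hX
    set Y := (fun s => P.2 + (Q.2 - P.2) * s) ⁻¹' (S' ∩ uIcc P.2 Q.2) with hY
    have hf1 : volume (T' ∩ uIcc P.1 Q.1) ≠ ⊤ :=
      measure_ne_top_of_subset inter_subset_right isCompact_uIcc.measure_lt_top.ne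
    have hf2 : volume (S' ∩ uIcc P.2 Q.2) ≠ ⊤ :=
      measure_ne_top_of_subset inter_subset_right isCompact_uIcc.measure_lt_top.ne
    have hsub : Icc (0:ℝ) 1 ⊆ X ∪ Y := by
      intro s hs
      have hm := mem_of_segment hC' hP hQ hs.1 hs.2
      have e : ∀ x y : ℝ, (1 - s) * x + s * y = x + (y - x) * s := fun x y => by ring
      have hu : ∀ x y : ℝ, x + (y - x) * s ∈ uIcc x y := fun x y => by
        rw [← segment_eq_uIcc, segment_eq_image]
        exact ⟨s, hs, by simp only [smul_eq_mul]; ring⟩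
      rw [e, e] at hm
      rcases hcov _ hm with h | h
      · exact Or.inl ⟨h, hu _ _⟩
      · exact Or.inr ⟨h, hu _ _⟩
    have hfX : volume X ≠ ⊤ := by
      rw [hX, volume_preimage_affine _ e1]; exact ENNReal.mul_ne_top ENNReal.ofReal_ne_top hf1
    have hfY : volume Y ≠ ⊤ := by
      rw [hY, volume_preimage_affine _ e2]; exact ENNReal.mul_ne_top ENNReal.ofReal_ne_top hf2
    have h1 : (1:ℝ) ≤ volume.real X + volume.real Y := by
      refine le_trans (le_of_eq ?_) ((measureReal_mono hsub (measure_union_ne_top hfX hfY)).trans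
        (measureReal_union_le _ _))
      simp [Measure.real]
    have eX : volume.real X = |Q.1 - P.1|⁻¹ * volume.real (T' ∩ uIcc P.1 Q.1) := by
      rw [Measure.real, hX, volume_preimage_affine _ e1, ENNReal.toReal_mul,
        ENNReal.toReal_ofReal (abs_nonneg _), abs_inv]; rfl
    have eY : volume.real Y = |Q.2 - P.2|⁻¹ * volume.real (S' ∩ uIcc P.2 Q.2) := by
      rw [Measure.real, hY, volume_preimage_affine _ e2, ENNReal.toReal_mul,
        ENNReal.toReal_ofReal (abs_nonneg _), abs_inv]; rfl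
    rw [eX, eY] at h1
    have h2 := mul_le_mul_of_nonneg_left h1 (by positivity : 0 ≤ |Q.1 - P.1| * |Q.2 - P.2|)
    have n1 := abs_ne_zero.2 e1
    have n2 := abs_ne_zero.2 e2
    field_simp at h2 ⊢
    linarith
  have hget1 : ∀ a ∈ Icc a0 a1, ∃ y, ((a - a0) / p, y) ∈ C' ∧ y ∈ Icc (0:ℝ) 1 := by
    intro a hm
    obtain ⟨⟨x, y⟩, hxy, rfl⟩ : a ∈ Prod.fst '' C := hfst ▸ hm
    have hy : y ∈ Icc b0 b1 := hsnd ▸ ⟨(x, y), hxy, rfl⟩
    refine ⟨(y - b0) / q, ?_, ⟨div_nonneg (by linarith [hy.1]) hq.le, (div_le_one hq).2 (by linarith [hy.2])⟩⟩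
    show (a0 + p * ((x - a0) / p), b0 + q * ((y - b0) / q)) ∈ C
    rw [mul_div_cancel₀ _ hp.ne', mul_div_cancel₀ _ hq.ne']
    simpa using hxy
  have hget2 : ∀ b ∈ Icc b0 b1, ∃ x, (x, (b - b0) / q) ∈ C' ∧ x ∈ Icc (0:ℝ) 1 := by
    intro b hm
    obtain ⟨⟨x, y⟩, hxy, rfl⟩ : b ∈ Prod.snd '' C := hsnd ▸ hm
    have hx : x ∈ Icc a0 a1 := hfst ▸ ⟨(x, y), hxy, rfl⟩
    refine ⟨(x - a0) / p, ?_, ⟨div_nonneg (by linarith [hx.1]) hp.le, (div_le_one hp).2 (by linarith [hx.2])⟩⟩
    show (a0 + p * ((x - a0) / p), b0 + q * ((y - b0) / q)) ∈ C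
    rw [mul_div_cancel₀ _ hp.ne', mul_div_cancel₀ _ hq.ne']
    simpa using hxy
  obtain ⟨l, mL, hl⟩ := hget1 a0 (left_mem_Icc.2 ha.le)
  obtain ⟨r, mR, hr⟩ := hget1 a1 (right_mem_Icc.2 ha.le)
  obtain ⟨d, mD, hd⟩ := hget2 b0 (left_mem_Icc.2 hb.le)
  obtain ⟨u, mU, hu⟩ := hget2 b1 (right_mem_Icc.2 hb.le)
  rw [sub_self, zero_div] at mL mD
  rw [div_self hp.ne'] at mR
  rw [div_self hq.ne'] at mU
  have hmain := quad_ineq hC' (hmono T') (hmono S') hseg hu hd hl hr mL mR mU mD
  have hz : ∀ A : Set ℝ, volume.real (A ∩ Icc 0 0) = 0 := fun A => by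
    have : volume (A ∩ Icc (0:ℝ) 0) = 0 := measure_mono_null inter_subset_right (by simp)
    rw [Measure.real, this]; simp
  have hend : ∀ (A : Set ℝ) (x0 w : ℝ), 0 < w →
      volume.real ((fun s => x0 + w * s) ⁻¹' A ∩ Icc 0 1) = volume.real (A ∩ Icc x0 (x0 + w)) / w := by
    intro A x0 w hw
    have : (fun s => x0 + w * s) ⁻¹' A ∩ Icc 0 1 = (fun s => x0 + w * s) ⁻¹' (A ∩ Icc x0 (x0 + w)) := by
      ext s
      simp only [mem_inter_iff, mem_preimage, mem_Icc]
      constructor <;> rintro ⟨h1, h2, h3⟩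
      · exact ⟨h1, by linarith [mul_nonneg hw.le h2], by linarith [mul_le_mul_of_nonneg_left h3 hw.le]⟩
      · exact ⟨h1, nonneg_of_mul_nonneg_right (by linarith : 0 ≤ w * s) hw,
          le_of_mul_le_mul_left (by linarith) hw⟩
    rw [Measure.real, this, volume_preimage_affine _ hw.ne', ENNReal.toReal_mul,
      ENNReal.toReal_ofReal (abs_nonneg _), abs_inv, abs_of_pos hw, ← div_eq_inv_mul]; rfl
  simp only [hz, sub_zero] at hmain
  rw [hend T a0 p hp, hend S b0 q hq] at hmain
  simpa [p, q] using hmain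

/-- Concave lengths over an interval dominate a tent of half the integral. -/
lemma tent_le {P : ℝ → ℝ} {z0 z1 A : ℝ} (hz : z0 < z1)
    (hP0 : ∀ z, 0 ≤ P z) (hc : ∀ y ∈ Icc z0 z1, ∀ z ∈ Icc z0 z1, ∀ θ : ℝ, 0 ≤ θ → θ ≤ 1 →
      (1 - θ) * P y + θ * P z ≤ P ((1 - θ) * y + θ * z))
    (hint : IntervalIntegrable P volume z0 z1) (hA : A = ∫ z in z0..z1, P z) {z : ℝ}
    (hzm : z ∈ Icc z0 z1) :
    2 * A * min (z - z0) (z1 - z) ≤ (z1 - z0) ^ 2 * P z := by
  set W := z1 - z0
  have hW : 0 < W := sub_pos.2 hz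
  set m := (z0 + z1) / 2
  have hmid : A ≤ W * P m := by
    have h1 : A = ∫ z in z0..z1, P (z0 + z1 - z) := by
      rw [hA, intervalIntegral.integral_comp_sub_left (fun z => P z) (z0 + z1)]; ring_nf
    have hint2 : IntervalIntegrable (fun z => P (z0 + z1 - z)) volume z0 z1 := by
      simpa using (hint.comp_sub_left (z0 + z1)).symm
    have h2 : A + A ≤ ∫ _z in z0..z1, 2 * P m := by
      conv_lhs => arg 1; rw [hA]
      conv_lhs => arg 2; rw [h1]
      rw [← intervalIntegral.integral_add hint hint2]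
      refine intervalIntegral.integral_mono_on hz.le (hint.add hint2) intervalIntegrable_const fun y hy => ?_
      have := hc y hy (z0 + z1 - y) ⟨by linarith [hy.2], by linarith [hy.1]⟩ (1/2) (by norm_num) (by norm_num)
      have e : (1 - 1/2) * y + 1/2 * (z0 + z1 - y) = m := by simp only [m]; ring
      rw [e] at this
      linarith
    rw [intervalIntegral.integral_const, smul_eq_mul] at h2
    linarith
  have hmI : m ∈ Icc z0 z1 := ⟨by simp only [m]; linarith, by simp only [m]; linarith⟩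
  rcases le_total z m with h | h
  · set θ := 2 * (z - z0) / W
    have h0 : 0 ≤ θ := div_nonneg (by linarith [hzm.1]) hW.le
    have h1 : θ ≤ 1 := (div_le_one hW).2 (by simp only [m, W] at h ⊢; linarith)
    have := hc z0 (left_mem_Icc.2 hz.le) m hmI θ h0 h1
    have e : (1 - θ) * z0 + θ * m = z := by
      have hW' : z1 - z0 ≠ 0 := hW.ne'
      simp only [θ, m, W]; field_simp; ring
    rw [e] at this
    have h2 := mul_le_mul_of_nonneg_left this (sq_nonneg W)
    have h3 := mul_le_mul_of_nonneg_left (min_le_left (z - z0) (z1 - z)) (mul_nonneg hW.le (hP0 m))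
    have h4 : W ^ 2 * θ = 2 * (z - z0) * W := by simp only [θ]; field_simp
    have h5 := mul_nonneg (mul_nonneg (sq_nonneg W) (sub_nonneg.2 h1)) (hP0 z0)
    have h6 : 0 ≤ min (z - z0) (z1 - z) := le_min (by linarith [hzm.1]) (by linarith [hzm.2])
    have h7 := mul_le_mul_of_nonneg_right hmid h6
    have h8 : W ^ 2 * (θ * P m) = W ^ 2 * θ * P m := by ring
    rw [h4] at h8
    linarith
  · set θ := 2 * (z1 - z) / W
    have h0 : 0 ≤ θ := div_nonneg (by linarith [hzm.2]) hW.le
    have h1 : θ ≤ 1 := (div_le_one hW).2 (by simp only [m, W] at h ⊢; linarith)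
    have := hc z1 (right_mem_Icc.2 hz.le) m hmI θ h0 h1
    have e : (1 - θ) * z1 + θ * m = z := by
      have hW' : z1 - z0 ≠ 0 := hW.ne'
      simp only [θ, m, W]; field_simp; ring
    rw [e] at this
    have h2 := mul_le_mul_of_nonneg_left this (sq_nonneg W)
    have h3 := mul_le_mul_of_nonneg_left (min_le_right (z - z0) (z1 - z)) (mul_nonneg hW.le (hP0 m))
    have h4 : W ^ 2 * θ = 2 * (z1 - z) * W := by simp only [θ]; field_simp
    have h5 := mul_nonneg (mul_nonneg (sq_nonneg W) (sub_nonneg.2 h1)) (hP0 z1)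
    have h6 : 0 ≤ min (z - z0) (z1 - z) := le_min (by linarith [hzm.1]) (by linarith [hzm.2])
    have h7 := mul_le_mul_of_nonneg_right hmid h6
    have h8 : W ^ 2 * (θ * P m) = W ^ 2 * θ * P m := by ring
    rw [h4] at h8
    linarith

lemma integral_tent {z0 z1 : ℝ} (hz : z0 ≤ z1) :
    (z1 - z0) ^ 2 / 4 = ∫ z in z0..z1, min (z - z0) (z1 - z) := by
  have hc : Continuous fun z => min (z - z0) (z1 - z) := by fun_prop
  rw [← intervalIntegral.integral_add_adjacent_intervals (b := (z0 + z1)/2)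
    (hc.intervalIntegrable _ _) (hc.intervalIntegrable _ _)]
  rw [intervalIntegral.integral_congr (g := fun z => z - z0) fun z hz' => min_eq_left (by
      rw [uIcc_of_le (by linarith)] at hz'; linarith [hz'.2]),
    intervalIntegral.integral_congr (a := (z0+z1)/2) (g := fun z => z1 - z) fun z hz' => min_eq_right (by
      rw [uIcc_of_le (by linarith)] at hz'; linarith [hz'.1])]
  rw [intervalIntegral.integral_sub intervalIntegral.intervalIntegrable_id intervalIntegrable_const,
    intervalIntegral.integral_sub intervalIntegrable_const intervalIntegral.intervalIntegrable_id]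
  simp
  ring

/-- The two projections of a body in `ℝ × (ℝ × ℝ)` along the last two axes. -/
def projA (K : Set (ℝ × ℝ × ℝ)) : Set (ℝ × ℝ) := (fun x => (x.1, x.2.1)) '' K

/-- See `projA`. -/
def projB (K : Set (ℝ × ℝ × ℝ)) : Set (ℝ × ℝ) := (fun x => (x.1, x.2.2)) '' K

lemma proj_volume_pos {K : Set (ℝ × ℝ × ℝ)} (hK : IsCompact K) (hKi : (interior K).Nonempty)
    (L : ℝ × ℝ × ℝ →L[ℝ] ℝ × ℝ) (hL : Function.Surjective L) : 0 < volume.real (L '' K) := by
  refine ENNReal.toReal_pos ?_ (hK.image L.continuous).measure_lt_top.ne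
  exact (((L.isOpenMap hL) _ isOpen_interior).measure_pos volume (hKi.image _)
    |>.trans_le (measure_mono (image_mono interior_subset))).ne'

/-- Two axis directions: the relative areas of the bases add up to at least one half. -/
theorem two_axes {K : Set (ℝ × ℝ × ℝ)} (hK : IsCompact K) (hKc : Convex ℝ K)
    (hKi : (interior K).Nonempty) {S T : Set (ℝ × ℝ)} (hS : MeasurableSet S) (hT : MeasurableSet T)
    (hcov : ∀ x ∈ K, (x.1, x.2.1) ∈ T ∨ (x.1, x.2.2) ∈ S) :
    1 / 2 ≤ volume.real (T ∩ projA K) / volume.real (projA K)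
      + volume.real (S ∩ projB K) / volume.real (projB K) := by
  let LA : ℝ × ℝ × ℝ →L[ℝ] ℝ × ℝ := (ContinuousLinearMap.fst ℝ ℝ (ℝ × ℝ)).prod
    ((ContinuousLinearMap.fst ℝ ℝ ℝ).comp (ContinuousLinearMap.snd ℝ ℝ (ℝ × ℝ)))
  let LB : ℝ × ℝ × ℝ →L[ℝ] ℝ × ℝ := (ContinuousLinearMap.fst ℝ ℝ (ℝ × ℝ)).prod
    ((ContinuousLinearMap.snd ℝ ℝ ℝ).comp (ContinuousLinearMap.snd ℝ ℝ (ℝ × ℝ)))
  have hA : 0 < volume.real (projA K) :=
    proj_volume_pos hK hKi LA fun p => ⟨(p.1, p.2, 0), rfl⟩
  have hB : 0 < volume.real (projB K) :=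
    proj_volume_pos hK hKi LB fun p => ⟨(p.1, 0, p.2), rfl⟩
  have hAc : IsCompact (projA K) := hK.image LA.continuous
  have hBc : IsCompact (projB K) := hK.image LB.continuous
  have hAv : Convex ℝ (projA K) := hKc.linear_image LA.toLinearMap
  have hBv : Convex ℝ (projB K) := hKc.linear_image LB.toLinearMap
  set Z := shadow (projA K) with hZ
  have hZB : shadow (projB K) = Z := by simp [hZ, shadow, projA, projB, image_image]
  have hne : Z.Nonempty := ((hKi.mono interior_subset).image _).image _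
  set z0 := sInf Z
  set z1 := sSup Z
  have hZI : Z = Icc z0 z1 := eq_Icc_of_connected_compact
    ((convex_shadow hAv).isConnected hne) (isCompact_shadow hAc)
  have hint : ∀ D : Set (ℝ × ℝ), IsCompact D → Integrable (chordLen D) ∧
      volume.real D = ∫ z, chordLen D z := by
    intro D hD
    have h1 : ∫⁻ z, ENNReal.ofReal (chordLen D z) = volume D := by
      rw [Measure.volume_eq_prod, Measure.prod_apply hD.isClosed.measurableSet]
      exact lintegral_congr fun z => ofReal_chordLen hD z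
    constructor
    · refine (lintegral_ofReal_ne_top_iff_integrable (measurable_chordLen hD).aestronglyMeasurable
        (ae_of_all _ fun z => chordLen_nonneg z)).1 ?_
      rw [h1]; exact hD.measure_lt_top.ne
    · rw [integral_eq_lintegral_of_nonneg_ae (ae_of_all _ fun z => chordLen_nonneg z)
        (measurable_chordLen hD).aestronglyMeasurable, h1]; rfl
  have hA' : ∀ D : Set (ℝ × ℝ), IsCompact D → shadow D = Z →
      volume.real D = ∫ z in z0..z1, chordLen D z := by
    intro D hD hDZ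
    have hle : z0 ≤ z1 := by rw [hZI] at hne; exact nonempty_Icc.1 hne
    rw [(hint D hD).2, intervalIntegral.integral_of_le hle, ← integral_Icc_eq_integral_Ioc,
      setIntegral_eq_integral_of_forall_compl_eq_zero fun z hz => chordLen_eq_zero (by rw [hDZ, hZI]; exact hz)]
  have hzlt : z0 < z1 := by
    by_contra hc
    rw [not_lt] at hc
    have := hA' _ hAc rfl
    rcases eq_or_lt_of_le hc with e | e
    · rw [e, intervalIntegral.integral_same] at this; linarith
    · rw [hZI] at hne; exact absurd (nonempty_Icc.1 hne) (not_le.2 e)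
  set W := z1 - z0
  have hW : 0 < W := sub_pos.2 hzlt
  set P := chordLen (projA K)
  set Q := chordLen (projB K)
  set A := volume.real (projA K)
  set B := volume.real (projB K)
  have htA : ∀ z ∈ Icc z0 z1, 2 * A * min (z - z0) (z1 - z) ≤ W ^ 2 * P z := fun z hz =>
    tent_le hzlt (fun z => chordLen_nonneg z)
      (fun y hy w hw θ h0 h1 => by
        have := chordLen_concave hAc hAv (show y ∈ shadow (projA K) by rw [← hZ, hZI]; exact hy)
          (show w ∈ shadow (projA K) by rw [← hZ, hZI]; exact hw) h0 h1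
        simpa [smul_eq_mul] using this)
      ((hint _ hAc).1.intervalIntegrable) (hA' _ hAc rfl) hz
  have htB : ∀ z ∈ Icc z0 z1, 2 * B * min (z - z0) (z1 - z) ≤ W ^ 2 * Q z := fun z hz =>
    tent_le hzlt (fun z => chordLen_nonneg z)
      (fun y hy w hw θ h0 h1 => by
        have := chordLen_concave hBc hBv (show y ∈ shadow (projB K) by rw [hZB, hZI]; exact hy)
          (show w ∈ shadow (projB K) by rw [hZB, hZI]; exact hw) h0 h1
        simpa [smul_eq_mul] using this)
      ((hint _ hBc).1.intervalIntegrable) (hA' _ hBc hZB) hz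
  -- slices
  have hslice : ∀ z ∈ Ioo z0 z1, 2 / W ^ 2 * min (z - z0) (z1 - z)
      ≤ A⁻¹ * (volume {t : ℝ | (z, t) ∈ T ∩ projA K}).toReal
        + B⁻¹ * (volume {t : ℝ | (z, t) ∈ S ∩ projB K}).toReal := by
    intro z hz
    have hmin : 0 < min (z - z0) (z1 - z) := lt_min (by linarith [hz.1]) (by linarith [hz.2])
    have hzI : z ∈ Z := by rw [hZI]; exact Ioo_subset_Icc_self hz
    obtain ⟨a0, a1, -, -, -, eP, memA⟩ := exists_chord_ends hAc hAv hzI
    obtain ⟨b0, b1, -, -, -, eQ, memB⟩ := exists_chord_ends hBc hBv (hZB.symm ▸ hzI)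
    have hP := htA z (Ioo_subset_Icc_self hz)
    have hQ := htB z (Ioo_subset_Icc_self hz)
    have hPp : 0 < P z := pos_of_mul_pos_right (lt_of_lt_of_le (by positivity) hP) (sq_nonneg W)
    have hQp : 0 < Q z := pos_of_mul_pos_right (lt_of_lt_of_le (by positivity) hQ) (sq_nonneg W)
    set C := {p : ℝ × ℝ | (z, p) ∈ K}
    have hCc : IsCompact C := (hK.image continuous_snd).of_isClosed_subset
      (hK.isClosed.preimage (Continuous.prodMk_right z)) fun p hp => ⟨(z, p), hp, rfl⟩
    have hCv : Convex ℝ C := by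
      intro p hp q hq a b ha hb hab
      show (z, a • p + b • q) ∈ K
      have := hKc hp hq ha hb hab
      convert this using 1
      ext <;> simp [← add_mul, hab]
    have hfst : Prod.fst '' C = Icc a0 a1 := by
      ext a
      rw [← memA]
      constructor
      · rintro ⟨p, hp, rfl⟩; exact ⟨(z, p), hp, rfl⟩
      · rintro ⟨⟨z', p⟩, hp, e⟩
        simp only [Prod.mk.injEq] at e
        obtain ⟨rfl, rfl⟩ := e
        exact ⟨p, hp, rfl⟩
    have hsnd : Prod.snd '' C = Icc b0 b1 := by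
      ext a
      rw [← memB]
      constructor
      · rintro ⟨p, hp, rfl⟩; exact ⟨(z, p), hp, rfl⟩
      · rintro ⟨⟨z', p⟩, hp, e⟩
        simp only [Prod.mk.injEq] at e
        obtain ⟨rfl, rfl⟩ := e
        exact ⟨p, hp, rfl⟩
    have key := planar_strips hCv (S := Prod.mk z ⁻¹' S) (T := Prod.mk z ⁻¹' T)
      (hS.preimage measurable_prodMk_left) (hT.preimage measurable_prodMk_left)
      (fun p hp => hcov (z, p) hp) (by simp only [P] at hPp; linarith) (by simp only [Q] at hQp; linarith) hfst hsnd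
    have sA : {t : ℝ | (z, t) ∈ T ∩ projA K} = Prod.mk z ⁻¹' T ∩ Icc a0 a1 := by
      ext t; exact and_congr Iff.rfl (memA t)
    have sB : {t : ℝ | (z, t) ∈ S ∩ projB K} = Prod.mk z ⁻¹' S ∩ Icc b0 b1 := by
      ext t; exact and_congr Iff.rfl (memB t)
    rw [sA, sB]
    change _ ≤ A⁻¹ * volume.real _ + B⁻¹ * volume.real _
    set x := volume.real (Prod.mk z ⁻¹' T ∩ Icc a0 a1)
    set y := volume.real (Prod.mk z ⁻¹' S ∩ Icc b0 b1)
    rw [← eP, ← eQ] at key
    set k := 2 / W ^ 2 * min (z - z0) (z1 - z)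
    have k0 : 0 ≤ k := by positivity
    have kA : k ≤ P z / A := by
      rw [le_div_iff₀ hA]; simp only [k]; field_simp; linarith
    have kB : k ≤ Q z / B := by
      rw [le_div_iff₀ hB]; simp only [k]; field_simp; linarith
    have x0 : 0 ≤ x / P z := div_nonneg measureReal_nonneg hPp.le
    have y0 : 0 ≤ y / Q z := div_nonneg measureReal_nonneg hQp.le
    have ex : A⁻¹ * x = P z / A * (x / P z) := by field_simp
    have ey : B⁻¹ * y = Q z / B * (y / Q z) := by field_simp
    rw [ex, ey]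
    calc k = k * 1 := (mul_one k).symm
      _ ≤ k * (x / P z + y / Q z) := mul_le_mul_of_nonneg_left key k0
      _ ≤ _ := by rw [mul_add]; exact add_le_add (mul_le_mul_of_nonneg_right kA x0) (mul_le_mul_of_nonneg_right kB y0)
  -- integrate
  have hsec : ∀ D E : Set (ℝ × ℝ), MeasurableSet D → IsCompact E →
      Integrable (fun z => (volume {t : ℝ | (z, t) ∈ D ∩ E}).toReal) ∧
        ∫ z, (volume {t : ℝ | (z, t) ∈ D ∩ E}).toReal = volume.real (D ∩ E) := by
    intro D E hD hE
    have hm : MeasurableSet (D ∩ E) := hD.inter hE.isClosed.measurableSet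
    have hmeas : Measurable fun z => (volume {t : ℝ | (z, t) ∈ D ∩ E}).toReal :=
      (measurable_measure_prodMk_left hm).ennreal_toReal
    have hfin : ∀ z, volume {t : ℝ | (z, t) ∈ D ∩ E} ≠ ⊤ := fun z =>
      measure_ne_top_of_subset (fun t ht => ht.2) (sec_isCompact hE z).measure_lt_top.ne
    have h1 : ∫⁻ z, ENNReal.ofReal (volume {t : ℝ | (z, t) ∈ D ∩ E}).toReal = volume (D ∩ E) := by
      rw [Measure.volume_eq_prod, Measure.prod_apply hm]
      exact lintegral_congr fun z => ENNReal.ofReal_toReal (hfin z)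
    refine ⟨(lintegral_ofReal_ne_top_iff_integrable hmeas.aestronglyMeasurable
      (ae_of_all _ fun z => ENNReal.toReal_nonneg)).1 ?_, ?_⟩
    · rw [h1]; exact measure_ne_top_of_subset inter_subset_right hE.measure_lt_top.ne
    · rw [integral_eq_lintegral_of_nonneg_ae (ae_of_all _ fun z => ENNReal.toReal_nonneg)
        hmeas.aestronglyMeasurable, h1]; rfl
  obtain ⟨iT, eT⟩ := hsec T (projA K) hT hAc
  obtain ⟨iS, eS⟩ := hsec S (projB K) hS hBc
  calc (1:ℝ) / 2 = ∫ z in z0..z1, 2 / W ^ 2 * min (z - z0) (z1 - z) := by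
        rw [intervalIntegral.integral_const_mul, ← integral_tent hzlt.le]; field_simp; simp only [W]; ring
    _ ≤ ∫ z in z0..z1, (A⁻¹ * (volume {t : ℝ | (z, t) ∈ T ∩ projA K}).toReal
        + B⁻¹ * (volume {t : ℝ | (z, t) ∈ S ∩ projB K}).toReal) :=
        intervalIntegral.integral_mono_on_of_le_Ioo hzlt.le (Continuous.intervalIntegrable (by fun_prop) _ _)
          ((iT.const_mul _).add (iS.const_mul _)).intervalIntegrable hslice
    _ ≤ ∫ z, (A⁻¹ * (volume {t : ℝ | (z, t) ∈ T ∩ projA K}).toReal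
        + B⁻¹ * (volume {t : ℝ | (z, t) ∈ S ∩ projB K}).toReal) := by
        rw [intervalIntegral.integral_of_le hzlt.le]
        exact setIntegral_le_integral ((iT.const_mul _).add (iS.const_mul _)) (ae_of_all _ fun z => by positivity)
    _ = _ := by
        rw [integral_add (iT.const_mul _) (iS.const_mul _), integral_const_mul, integral_const_mul, eT, eS]
        ring

end

end Vale.Agent.P243
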