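import Vale.Agent.P243.Defs
import Vale.Agent.P243.TwoSlices

/-!
Cylinder coverings with at most two axis directions in Euclidean space.
-/

open MeasureTheory Set

set_option linter.unusedSectionVars false

namespace Vale.Agent.P243

noncomputable section

/-- The first two coordinates. -/
def coordA : ℝ × ℝ × ℝ →L[ℝ] ℝ × ℝ := (ContinuousLinearMap.fst ℝ ℝ (ℝ × ℝ)).prod
  ((ContinuousLinearMap.fst ℝ ℝ ℝ).comp (ContinuousLinearMap.snd ℝ ℝ (ℝ × ℝ)))

/-- The first and last coordinates. -/
def coordB : ℝ × ℝ × ℝ →L[ℝ] ℝ × ℝ := (ContinuousLinearMap.fst ℝ ℝ (ℝ × ℝ)).prod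
  ((ContinuousLinearMap.snd ℝ ℝ ℝ).comp (ContinuousLinearMap.snd ℝ ℝ (ℝ × ℝ)))

lemma finrank_perp {u : Space} (hu : u ≠ 0) : Module.finrank ℝ (perp u) = 2 := by
  have : Fact (Module.finrank ℝ Space = 2 + 1) := ⟨by simp⟩
  exact Submodule.finrank_orthogonal_span_singleton hu

/-- Any linear map onto the plane that kills the axis is a chart for the base plane. -/
lemma exists_chart {u : Space} (hu : u ≠ 0) (P : Space →L[ℝ] ℝ × ℝ) (hP : Function.Surjective P)
    (hPu : P u = 0) (K : Set Space) (B : Set (perp u)) (hB : FinitePlaneArea u B) :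
    ∃ B' : Set (ℝ × ℝ), MeasurableSet B' ∧ volume B' ≠ ⊤ ∧
      (∀ x ∈ axisCylinder u B, P x ∈ B') ∧
      volume.real B' / volume.real (P '' K) = planeArea u B / projArea K u := by
  have hPp : ∀ x : Space, P ((perp u).orthogonalProjectionOnto x : Space) = P x := fun x => by
    have h := Submodule.sub_starProjection_mem_orthogonal (K := perp u) x
    rw [Submodule.orthogonal_orthogonal, Submodule.mem_span_singleton] at h
    obtain ⟨c, hc⟩ := h
    have := congrArg P hc
    rw [map_smul, hPu, smul_zero, map_sub] at this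
    exact (sub_eq_zero.1 this.symm).symm
  let φ0 : perp u →ₗ[ℝ] ℝ × ℝ := P.toLinearMap.comp (perp u).subtype
  have hs : Function.Surjective φ0 := fun p => by
    obtain ⟨x, rfl⟩ := hP p
    exact ⟨(perp u).orthogonalProjectionOnto x, hPp x⟩
  have hi : Function.Injective φ0 :=
    (LinearMap.injective_iff_surjective_of_finrank_eq_finrank (by rw [finrank_perp hu]; simp)).2 hs
  let φ : perp u ≃L[ℝ] ℝ × ℝ := (LinearEquiv.ofBijective φ0 ⟨hi, hs⟩).toContinuousLinearEquiv
  have hφ : ∀ x, φ ((perp u).orthogonalProjectionOnto x) = P x := hPp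
  let ν := Measure.map φ (volume : Measure (perp u))
  have : ν.IsAddHaarMeasure := ContinuousLinearEquiv.isAddHaarMeasure_map φ volume
  set c := Measure.addHaarScalarFactor ν (volume : Measure (ℝ × ℝ))
  have hc : (0 : ℝ) < c :=
    NNReal.coe_pos.2 (Measure.addHaarScalarFactor_pos_of_isAddHaarMeasure ν (volume : Measure (ℝ × ℝ)))
  have hsc : ∀ D : Set (perp u), volume D = c * volume (φ '' D) := fun D => by
    have h1 : ν (φ '' D) = volume D := by
      show Measure.map (⇑φ.toHomeomorph) volume (φ '' D) = volume D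
      rw [φ.toHomeomorph.measurableEmbedding.map_apply]
      exact congrArg volume (preimage_image_eq D φ.injective)
    rw [← h1, Measure.isAddLeftInvariant_eq_smul ν (volume : Measure (ℝ × ℝ))]
    rfl
  have hfin : volume (φ '' B) ≠ ⊤ := fun h => hB (by
    show volume B = ⊤
    rw [hsc B, h, ENNReal.mul_top]
    simpa using hc.ne')
  refine ⟨toMeasurable volume (φ '' B), measurableSet_toMeasurable _ _, by rwa [measure_toMeasurable],
    fun x hx => subset_toMeasurable _ _ ⟨_, hx, hφ x⟩, ?_⟩
  have hK : P '' K = φ '' ((perp u).orthogonalProjectionOnto '' K) := by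
    rw [image_image]; exact image_congr fun x _ => (hφ x).symm
  have e1 : planeArea u B = c * volume.real (toMeasurable volume (φ '' B)) := by
    show (volume B).toReal = _
    rw [hsc B, ENNReal.toReal_mul, Measure.real, measure_toMeasurable]; rfl
  have e2 : projArea K u = c * volume.real (P '' K) := by
    show (volume ((perp u).orthogonalProjectionOnto '' K)).toReal = _
    rw [hsc, ENNReal.toReal_mul, hK]; rfl
  rw [e1, e2, mul_div_mul_left _ _ hc.ne']

lemma exists_frame {v w : Space} (hv : v ≠ 0) (hw : w ∉ ℝ ∙ v) :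
    ∃ L : (ℝ × ℝ × ℝ) ≃L[ℝ] Space, L (0, 1, 0) = v ∧ L (0, 0, 1) = w := by
  have hlt : Module.finrank ℝ (Submodule.span ℝ ({v, w} : Finset Space) : Submodule ℝ Space)
      < Module.finrank ℝ Space := lt_of_le_of_lt (finrank_span_finset_le_card _)
        (lt_of_le_of_lt Finset.card_le_two (by simp))
  obtain ⟨n, hn⟩ : ∃ n : Space, n ∉ Submodule.span ℝ (({v, w} : Finset Space) : Set Space) := by
    by_contra h
    simp only [not_exists, not_not] at h
    rw [Submodule.eq_top_iff'.2 h, finrank_top] at hlt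
    exact lt_irrefl _ hlt
  let f : ℝ × ℝ × ℝ →ₗ[ℝ] Space := (LinearMap.id.smulRight n).coprod
    ((LinearMap.id.smulRight v).coprod (LinearMap.id.smulRight w))
  have hf : ∀ z a b : ℝ, f (z, a, b) = z • n + (a • v + b • w) := fun z a b => by simp [f]
  have hinj : Function.Injective f := by
    rw [injective_iff_map_eq_zero]
    rintro ⟨z, a, b⟩ h
    rw [hf] at h
    have hmem : a • v + b • w ∈ Submodule.span ℝ (({v, w} : Finset Space) : Set Space) :=
      add_mem (Submodule.smul_mem _ _ (Submodule.subset_span (by simp)))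
        (Submodule.smul_mem _ _ (Submodule.subset_span (by simp)))
    have hz : z = 0 := by
      by_contra hz
      refine hn ?_
      have e : z • n = -(a • v + b • w) := eq_neg_of_add_eq_zero_left h
      have e2 : z⁻¹ • (z • n) = n := inv_smul_smul₀ hz n
      rw [← e2, e]
      exact Submodule.smul_mem _ _ (neg_mem hmem)
    rw [hz, zero_smul, zero_add] at h
    have hb : b = 0 := by
      by_contra hb
      refine hw (Submodule.mem_span_singleton.2 ⟨-(b⁻¹ * a), ?_⟩)
      have e : b • w = -(a • v) := eq_neg_of_add_eq_zero_right h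
      rw [← inv_smul_smul₀ hb w, e, smul_neg, smul_smul, neg_smul]
    rw [hb, zero_smul, add_zero] at h
    rw [hz, hb, (smul_eq_zero.1 h).resolve_right hv]
    rfl
  have hsurj : Function.Surjective f :=
    (LinearMap.injective_iff_surjective_of_finrank_eq_finrank (by simp)).1 hinj
  exact ⟨(LinearEquiv.ofBijective f ⟨hinj, hsurj⟩).toContinuousLinearEquiv,
    by show f (0, 1, 0) = v; simp [hf], by show f (0, 0, 1) = w; simp [hf]⟩

/-- Two linearly independent directions containing all the axes. -/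
lemma exists_independent {ι : Type*} [Nonempty ι] {u : ι → Space} (hu : ∀ i, ‖u i‖ = 1) {v w : Space}
    (h : ∀ i, u i ∈ ℝ ∙ v ∨ u i ∈ ℝ ∙ w) :
    ∃ v' w' : Space, v' ≠ 0 ∧ w' ∉ ℝ ∙ v' ∧ ∀ i, u i ∈ ℝ ∙ v' ∨ u i ∈ ℝ ∙ w' := by
  have hex : ∀ x : Space, ∃ y : Space, y ∉ ℝ ∙ x := fun x => by
    by_contra hc
    simp only [not_exists, not_not] at hc
    have h1 : Module.finrank ℝ (ℝ ∙ x : Submodule ℝ Space) ≤ ({x} : Finset Space).card := by
      have := finrank_span_finset_le_card (R := ℝ) ({x} : Finset Space)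
      rwa [Finset.coe_singleton] at this
    rw [Submodule.eq_top_iff'.2 hc, finrank_top] at h1
    simp at h1
  have hne : ∀ i, u i ≠ 0 := fun i e => by simpa [e] using hu i
  by_cases hv : v = 0
  · by_cases hw : w = 0
    · exfalso
      obtain ⟨i⟩ := ‹Nonempty ι›
      rcases h i with h | h <;> simp [hv, hw, hne i] at h
    · obtain ⟨y, hy⟩ := hex w
      refine ⟨w, y, hw, hy, fun i => Or.inl ?_⟩
      rcases h i with h | h
      · simp [hv, hne i] at h
      · exact h
  · by_cases hw : w ∈ ℝ ∙ v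
    · obtain ⟨y, hy⟩ := hex v
      refine ⟨v, y, hv, hy, fun i => Or.inl ?_⟩
      rcases h i with h | h
      · exact h
      · exact (Submodule.span_singleton_le_iff_mem _ _).2 hw h
    · exact ⟨v, w, hv, hw, h⟩

/-- Coverings with at most two axis directions have relative area at least one half. -/
theorem two_directions_bound {m : ℕ} {K : Set Space} (hK : IsCompact K) (hKc : Convex ℝ K)
    (hKi : (interior K).Nonempty) (u : Fin m → Space) (B : ∀ i, Set (perp (u i)))
    (hu : ∀ i, ‖u i‖ = 1) {v₀ w₀ : Space} (hdir : ∀ i, u i ∈ ℝ ∙ v₀ ∨ u i ∈ ℝ ∙ w₀)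
    (hBf : ∀ i, FinitePlaneArea (u i) (B i)) (hcov : K ⊆ ⋃ i, axisCylinder (u i) (B i)) :
    1 / 2 ≤ ∑ i, planeArea (u i) (B i) / projArea K (u i) := by
  classical
  obtain ⟨x₀, hx₀⟩ := hKi.mono interior_subset
  obtain ⟨i₀, -⟩ := mem_iUnion.1 (hcov hx₀)
  have : Nonempty (Fin m) := ⟨i₀⟩
  obtain ⟨v, w, hv, hw, huvw⟩ := exists_independent hu hdir
  obtain ⟨L, hLv, hLw⟩ := exists_frame hv hw
  set PA : Space →L[ℝ] ℝ × ℝ := coordA.comp (L.symm : Space →L[ℝ] ℝ × ℝ × ℝ)
  set PB : Space →L[ℝ] ℝ × ℝ := coordB.comp (L.symm : Space →L[ℝ] ℝ × ℝ × ℝ)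
  let P : Fin m → Space →L[ℝ] ℝ × ℝ := fun i => if u i ∈ ℝ ∙ v then PB else PA
  have hsurj : ∀ i, Function.Surjective (P i) := fun i p => by
    simp only [P]
    split_ifs
    · exact ⟨L (p.1, 0, p.2), by simp [PB, coordB]⟩
    · exact ⟨L (p.1, p.2, 0), by simp [PA, coordA]⟩
  have hkill : ∀ i, P i (u i) = 0 := fun i => by
    simp only [P]
    split_ifs with h
    · obtain ⟨c, hc⟩ := Submodule.mem_span_singleton.1 h
      rw [← hc, map_smul, ← hLv]
      simp [PB, coordB]
    · obtain ⟨c, hc⟩ := Submodule.mem_span_singleton.1 ((huvw i).resolve_left h)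
      rw [← hc, map_smul, ← hLw]
      simp [PA, coordA]
  choose B' hBm hB'f hmem hratio using fun i =>
    exists_chart (fun e => by simpa [e] using hu i) (P i) (hsurj i) (hkill i) K (B i) (hBf i)
  set I := Finset.univ.filter fun i => u i ∈ ℝ ∙ v
  set J := Finset.univ.filter fun i => ¬ u i ∈ ℝ ∙ v
  set S := ⋃ i ∈ I, B' i with hSdef
  set T := ⋃ i ∈ J, B' i with hTdef
  set K' : Set (ℝ × ℝ × ℝ) := L.symm '' K with hK'
  have hK'i : (interior K').Nonempty := by
    have : interior K' = L.symm '' interior K := (L.symm.toHomeomorph.image_interior K).symm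
    rw [this]; exact hKi.image _
  have key := two_axes (K := K') (hK.image L.symm.continuous)
    (hKc.linear_image (L.symm.toLinearEquiv : Space →ₗ[ℝ] ℝ × ℝ × ℝ)) hK'i
    (S := S) (T := T) (Finset.measurableSet_biUnion _ fun i _ => hBm i)
    (Finset.measurableSet_biUnion _ fun i _ => hBm i) (by
      rintro _ ⟨x, hx, rfl⟩
      obtain ⟨i, hi⟩ := mem_iUnion.1 (hcov hx)
      have := hmem i x hi
      simp only [P] at this
      split_ifs at this with h
      · exact Or.inr (mem_biUnion (x := i) (by simp [I, h]) this)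
      · exact Or.inl (mem_biUnion (x := i) (by simp [J, h]) this))
  have hA : projA K' = PA '' K := by rw [projA, hK', image_image]; rfl
  have hB : projB K' = PB '' K := by rw [projB, hK', image_image]; rfl
  have hbound : ∀ (s : Finset (Fin m)) (Q : Space →L[ℝ] ℝ × ℝ), (∀ i ∈ s, P i = Q) →
      volume.real ((⋃ i ∈ s, B' i) ∩ Q '' K) / volume.real (Q '' K)
        ≤ ∑ i ∈ s, planeArea (u i) (B i) / projArea K (u i) := by
    intro s Q hQ
    rw [← Finset.sum_congr rfl fun i _ => hratio i]
    rw [Finset.sum_congr rfl fun i (hi : i ∈ s) => by rw [hQ i hi], ← Finset.sum_div]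
    refine div_le_div_of_nonneg_right ?_ measureReal_nonneg
    refine (measureReal_mono inter_subset_left ?_).trans (measureReal_biUnion_finset_le _ _)
    exact (measure_biUnion_lt_top s.finite_toSet fun i _ => (hB'f i).lt_top).ne
  rw [← Finset.sum_filter_add_sum_filter_not Finset.univ (fun i => u i ∈ ℝ ∙ v)]
  refine key.trans ?_
  rw [hA, hB, add_comm]
  exact add_le_add (hbound I PB fun i hi => if_pos (Finset.mem_filter.1 hi).2)
    (hbound J PA fun i hi => if_neg (Finset.mem_filter.1 hi).2)

end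

end Vale.Agent.P243
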